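import Vale.Agent.P157.Hybrid

/-!
Expected log partition functions of Gaussian patterns over an arbitrary configuration space:
exchange of one pattern, comparison of configurations, and the product bound.
-/

open MeasureTheory ProbabilityTheory Filter Topology Real

namespace Vale.Agent.P157.Sphere

/-- Field of a pattern on a configuration. -/
def dot {n : ℕ} (g v : Fin n → ℝ) : ℝ := ∑ i, g i * v i

/-- Logarithm of an exponential average. -/
noncomputable def lse {S : Type*} [MeasurableSpace S] (μ : Measure S) (φ : S → ℝ) : ℝ :=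
  Real.log (∫ s, Real.exp (φ s) ∂μ)

variable {S : Type*} [MeasurableSpace S] {n : ℕ} {f : ℝ → ℝ} {B : ℝ}

/-- Total potential of some patterns. -/
def ham (f : ℝ → ℝ) (w : S → Fin n → ℝ) {M : ℕ} (G : Fin M → Fin n → ℝ) (s : S) : ℝ :=
  ∑ a, f (dot (G a) (w s))

/-- Gain of one pattern. -/
noncomputable def gain (f : ℝ → ℝ) (μ : Measure S) (w : S → Fin n → ℝ) (g : Fin n → ℝ) : ℝ :=
  lse μ fun s => f (dot g (w s))

/-- Expected log partition function. -/
noncomputable def F (f : ℝ → ℝ) (μ : Measure S) (w : S → Fin n → ℝ) (M : ℕ) : ℝ :=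
  ∫ G, lse μ (ham f w G) ∂pats n M

/-- Expected log partition function with a first pattern of another kind. -/
noncomputable def hd (f : ℝ → ℝ) (μ : Measure S) (w' w : S → Fin n → ℝ) (M : ℕ) : ℝ :=
  ∫ G, lse μ (fun s => f (dot (G 0) (w' s)) + ham f w (Fin.tail G) s) ∂pats n (M + 1)

@[fun_prop]
theorem measurable_dot : Measurable fun p : (Fin n → ℝ) × (Fin n → ℝ) => dot p.1 p.2 := by
  unfold dot; fun_prop

theorem measurable_ham (hf : Measurable f) {w : S → Fin n → ℝ} (hw : Measurable w) (M : ℕ) :
    Measurable fun p : (Fin M → Fin n → ℝ) × S => ham f w p.1 p.2 := by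
  unfold ham dot; fun_prop

theorem measurable_ham_right (hf : Measurable f) {w : S → Fin n → ℝ} (hw : Measurable w) {M : ℕ}
    (G : Fin M → Fin n → ℝ) : Measurable (ham f w G) := by
  unfold ham dot; fun_prop

theorem measurable_pot (hf : Measurable f) {w : S → Fin n → ℝ} (hw : Measurable w) (g : Fin n → ℝ) :
    Measurable fun s => f (dot g (w s)) := by
  unfold dot; fun_prop

omit [MeasurableSpace S] in
theorem abs_ham_le (hB : ∀ x, |f x| ≤ B) (w : S → Fin n → ℝ) {M : ℕ} (G : Fin M → Fin n → ℝ)
    (s : S) : |ham f w G s| ≤ M * B :=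
  abs_sum_f_le hB _

section Lse

variable (μ : Measure S) [IsProbabilityMeasure μ] {φ ψ : S → ℝ} {C D : ℝ}

theorem integrable_exp' (hm : Measurable φ) (h : ∀ s, |φ s| ≤ C) :
    Integrable (fun s => Real.exp (φ s)) μ :=
  Integrable.of_bound hm.exp.aestronglyMeasurable (Real.exp C) (ae_of_all _ fun s => by
    rw [Real.norm_eq_abs, Real.abs_exp]; exact Real.exp_le_exp.2 (abs_le.1 (h s)).2)

theorem exp_le_integral (hm : Measurable φ) (h : ∀ s, |φ s| ≤ C) :
    Real.exp (-C) ≤ ∫ s, Real.exp (φ s) ∂μ := by
  calc Real.exp (-C) = ∫ _, Real.exp (-C) ∂μ := by simp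
    _ ≤ _ := integral_mono (integrable_const _) (integrable_exp' μ hm h) fun s =>
      Real.exp_le_exp.2 (abs_le.1 (h s)).1

theorem abs_lse_le (hm : Measurable φ) (h : ∀ s, |φ s| ≤ C) : |lse μ φ| ≤ C := by
  have h1 := exp_le_integral μ hm h
  have h2 : ∫ s, Real.exp (φ s) ∂μ ≤ Real.exp C := by
    calc ∫ s, Real.exp (φ s) ∂μ ≤ ∫ _, Real.exp C ∂μ :=
          integral_mono (integrable_exp' μ hm h) (integrable_const _) fun s =>
            Real.exp_le_exp.2 (abs_le.1 (h s)).2
      _ = _ := by simp
  have h0 := lt_of_lt_of_le (Real.exp_pos _) h1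
  exact abs_le.2 ⟨(Real.le_log_iff_exp_le h0).2 h1, (Real.log_le_iff_le_exp h0).2 h2⟩

theorem prob_tilted (hm : Measurable φ) (h : ∀ s, |φ s| ≤ C) :
    IsProbabilityMeasure (μ.tilted φ) :=
  isProbabilityMeasure_tilted (integrable_exp' μ hm h)

theorem lse_add (hm : Measurable φ) (h : ∀ s, |φ s| ≤ C) (hm' : Measurable ψ)
    (h' : ∀ s, |ψ s| ≤ D) : lse μ (fun s => φ s + ψ s) = lse μ φ + lse (μ.tilted φ) ψ := by
  have hp : 0 < ∫ s, Real.exp (φ s) ∂μ := lt_of_lt_of_le (Real.exp_pos _) (exp_le_integral μ hm h)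
  have hq : 0 < ∫ s, Real.exp ((φ + ψ) s) ∂μ :=
    lt_of_lt_of_le (Real.exp_pos _) (exp_le_integral μ (C := C + D) (hm.add hm') fun s =>
      (abs_add_le _ _).trans (add_le_add (h s) (h' s)))
  rw [lse, lse, lse, integral_exp_tilted, Real.log_div hq.ne' hp.ne']
  simp only [Pi.add_apply]
  ring

theorem measurable_lse {X : Type*} [MeasurableSpace X] {φ : X × S → ℝ} (hm : Measurable φ) :
    Measurable fun x => lse μ fun s => φ (x, s) := by
  have h : StronglyMeasurable fun x => ∫ s, Real.exp (φ (x, s)) ∂μ :=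
    (hm.exp.stronglyMeasurable).integral_prod_right'
  exact h.measurable.log

end Lse

variable (hf : Measurable f) (hB : ∀ x, |f x| ≤ B)
include hf hB

theorem integrable_F (μ : Measure S) [IsProbabilityMeasure μ] {w : S → Fin n → ℝ} (hw : Measurable w)
    (M : ℕ) : Integrable (fun G => lse μ (ham f w G)) (pats n M) :=
  Integrable.of_bound (measurable_lse μ (measurable_ham hf hw M)).aestronglyMeasurable (M * B)
    (ae_of_all _ fun G => by
      rw [Real.norm_eq_abs]
      exact abs_lse_le μ (measurable_ham_right hf hw G) fun s => abs_ham_le hB w G s)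

theorem abs_F_le (μ : Measure S) [IsProbabilityMeasure μ] {w : S → Fin n → ℝ} (hw : Measurable w)
    (M : ℕ) : |F f μ w M| ≤ M * B := by
  have := norm_integral_le_of_norm_le_const (μ := pats n M) (C := M * B)
    (f := fun G => lse μ (ham f w G)) (ae_of_all _ fun G => by
      rw [Real.norm_eq_abs]
      exact abs_lse_le μ (measurable_ham_right hf hw G) fun s => abs_ham_le hB w G s)
  simpa [F, Real.norm_eq_abs] using this

theorem integrable_hd_prod (μ : Measure S) [IsProbabilityMeasure μ] {w' w : S → Fin n → ℝ}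
    (hw' : Measurable w') (hw : Measurable w) (M : ℕ) :
    Integrable (fun p : (Fin n → ℝ) × (Fin M → Fin n → ℝ) =>
      lse μ (fun s => f (dot p.1 (w' s)) + ham f w p.2 s)) ((gs n).prod (pats n M)) := by
  refine Integrable.of_bound (Measurable.aestronglyMeasurable ?_) (B + M * B) (ae_of_all _ fun p => ?_)
  · exact measurable_lse μ (φ := fun q : ((Fin n → ℝ) × (Fin M → Fin n → ℝ)) × S =>
      f (dot q.1.1 (w' q.2)) + ham f w q.1.2 q.2) (by unfold ham dot; fun_prop)
  · rw [Real.norm_eq_abs]
    exact abs_lse_le μ ((measurable_pot hf hw' _).add (measurable_ham_right hf hw _)) fun s =>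
      (abs_add_le _ _).trans (add_le_add (hB _) (abs_ham_le hB w _ s))

theorem hd_eq_prod (μ : Measure S) [IsProbabilityMeasure μ] {w' w : S → Fin n → ℝ}
    (hw' : Measurable w') (hw : Measurable w) (M : ℕ) :
    hd f μ w' w M = ∫ p, lse μ (fun s => f (dot p.1 (w' s)) + ham f w p.2 s)
      ∂(gs n).prod (pats n M) := by
  have hp := measurePreserving_piFinSuccAbove (fun _ : Fin (M + 1) => gs n) 0
  have hi := integrable_hd_prod hf hB μ hw' hw M
  rw [pats] at hi
  rw [pats, ← hp.map_eq, integral_map_equiv]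
  unfold hd pats
  refine integral_congr_ae (ae_of_all _ fun G => ?_)
  simp [MeasurableEquiv.piFinSuccAbove_apply, Fin.insertNthEquiv]

/-- The first pattern first. -/
theorem head_eq (μ : Measure S) [IsProbabilityMeasure μ] {w' w : S → Fin n → ℝ}
    (hw' : Measurable w') (hw : Measurable w) (M : ℕ) :
    Integrable (fun g => gain f μ w' g + F f (μ.tilted fun s => f (dot g (w' s))) w M) (gs n) ∧
    hd f μ w' w M = ∫ g, gain f μ w' g + F f (μ.tilted fun s => f (dot g (w' s))) w M ∂gs n := by
  have hi := integrable_hd_prod hf hB μ hw' hw M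
  have he : ∀ g, ∫ G, lse μ (fun s => f (dot g (w' s)) + ham f w G s) ∂pats n M
      = gain f μ w' g + F f (μ.tilted fun s => f (dot g (w' s))) w M := fun g => by
    have := prob_tilted μ (measurable_pot hf hw' g) fun s => hB _
    simp only [lse_add μ (measurable_pot hf hw' g) (fun s => hB _) (measurable_ham_right hf hw _)
      (fun s => abs_ham_le hB w _ s)]
    rw [integral_add (integrable_const _) (integrable_F hf hB _ hw M)]
    simp [gain, F]
  refine ⟨hi.integral_prod_left.congr (ae_of_all _ he), ?_⟩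
  rw [hd_eq_prod hf hB μ hw' hw M, integral_prod _ hi]
  exact integral_congr_ae (ae_of_all _ he)

/-- The first pattern last. -/
theorem tail_eq (μ : Measure S) [IsProbabilityMeasure μ] {w' w : S → Fin n → ℝ}
    (hw' : Measurable w') (hw : Measurable w) (M : ℕ) :
    Integrable (fun G => lse μ (ham f w G) + ∫ g, gain f (μ.tilted (ham f w G)) w' g ∂gs n) (pats n M) ∧
    hd f μ w' w M
      = ∫ G, lse μ (ham f w G) + ∫ g, gain f (μ.tilted (ham f w G)) w' g ∂gs n ∂pats n M := by
  have hi := integrable_hd_prod hf hB μ hw' hw M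
  have he : ∀ G : Fin M → Fin n → ℝ, ∫ g, lse μ (fun s => f (dot g (w' s)) + ham f w G s) ∂gs n
      = lse μ (ham f w G) + ∫ g, gain f (μ.tilted (ham f w G)) w' g ∂gs n := fun G => by
    have := prob_tilted μ (measurable_ham_right hf hw G) fun s => abs_ham_le hB w G s
    have h1 : ∀ g, lse μ (fun s => f (dot g (w' s)) + ham f w G s)
        = lse μ (ham f w G) + gain f (μ.tilted (ham f w G)) w' g := fun g => by
      rw [gain, ← lse_add μ (measurable_ham_right hf hw G) (fun s => abs_ham_le hB w G s)
        (measurable_pot hf hw' g) (fun s => hB _)]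
      simp only [add_comm]
    simp only [h1]
    rw [integral_add (integrable_const _)]
    · simp
    · exact Integrable.of_bound (measurable_lse _ (φ := fun q : (Fin n → ℝ) × S => f (dot q.1 (w' q.2)))
        (by unfold dot; fun_prop)).aestronglyMeasurable B (ae_of_all _ fun g => by
          rw [Real.norm_eq_abs]; exact abs_lse_le (μ.tilted (ham f w G)) (measurable_pot hf hw' g) fun s => hB _)
  refine ⟨hi.integral_prod_right.congr (ae_of_all _ he), ?_⟩
  rw [hd_eq_prod hf hB μ hw' hw M, integral_prod_symm _ hi]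
  exact integral_congr_ae (ae_of_all _ he)

omit hf hB in
theorem F_succ (μ : Measure S) (w : S → Fin n → ℝ) (M : ℕ) : F f μ w (M + 1) = hd f μ w w M := by
  unfold F hd ham
  simp only [Fin.sum_univ_succ, Fin.tail]

omit hf hB in
theorem F_zero (μ : Measure S) [IsProbabilityMeasure μ] (w : S → Fin n → ℝ) : F f μ w 0 = 0 := by
  have h : ∀ G : Fin 0 → Fin n → ℝ, lse μ (ham f w G) = 0 := fun G => by
    unfold ham lse; simp
  simp [F, h]

theorem abs_gain_le (μ : Measure S) [IsProbabilityMeasure μ] {w : S → Fin n → ℝ} (hw : Measurable w) :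
    |∫ g, gain f μ w g ∂gs n| ≤ B := by
  have := norm_integral_le_of_norm_le_const (μ := gs n) (C := B) (f := fun g => gain f μ w g)
    (ae_of_all _ fun g => by
      rw [Real.norm_eq_abs]; exact abs_lse_le μ (measurable_pot hf hw g) fun s => hB _)
  simpa [Real.norm_eq_abs] using this

theorem F_step (μ : Measure S) [IsProbabilityMeasure μ] {w : S → Fin n → ℝ} (hw : Measurable w)
    (M : ℕ) : |F f μ w (M + 1) - F f μ w M| ≤ B := by
  obtain ⟨hi, he⟩ := tail_eq hf hB μ hw hw M
  rw [F_succ, he, F, ← integral_sub hi (integrable_F hf hB μ hw M), ← Real.norm_eq_abs]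
  refine (norm_integral_le_of_norm_le_const (C := B) (ae_of_all _ fun G => ?_)).trans_eq (by simp)
  have := prob_tilted μ (measurable_ham_right hf hw G) fun s => abs_ham_le hB w G s
  simpa [Real.norm_eq_abs] using abs_gain_le hf hB (μ.tilted (ham f w G)) hw

theorem F_lip (μ : Measure S) [IsProbabilityMeasure μ] {w : S → Fin n → ℝ} (hw : Measurable w)
    (m m' : ℕ) : |F f μ w m - F f μ w m'| ≤ B * |(m : ℝ) - m'| := by
  have h : ∀ d j, |F f μ w (j + d) - F f μ w j| ≤ B * d := by
    intro d
    induction d with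
    | zero => intro j; simp
    | succ d ih =>
      intro j
      have := F_step hf hB μ hw (j + d)
      refine (abs_sub_le _ (F f μ w (j + d)) _).trans ?_
      push_cast
      rw [show j + (d + 1) = j + d + 1 from rfl]
      linarith [ih j]
  rcases le_total m m' with hm | hm
  · obtain ⟨d, rfl⟩ := Nat.exists_eq_add_of_le hm
    rw [abs_sub_comm]; push_cast; simpa using h d m
  · obtain ⟨d, rfl⟩ := Nat.exists_eq_add_of_le hm
    push_cast; simpa using h d m'

/-- Configurations with close one-pattern gains give close pressures. -/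
theorem F_compare {w w' : S → Fin n → ℝ} (hw : Measurable w) (hw' : Measurable w') {ε : ℝ}
    (hε : ∀ ν : Measure S, IsProbabilityMeasure ν →
      |∫ g, gain f ν w g ∂gs n - ∫ g, gain f ν w' g ∂gs n| ≤ ε) :
    ∀ (M : ℕ) (μ : Measure S), IsProbabilityMeasure μ → |F f μ w M - F f μ w' M| ≤ M * ε := by
  intro M
  induction M with
  | zero => intro μ _; simp [F_zero]
  | succ M ih =>
    intro μ hμ
    obtain ⟨i1, e1⟩ := tail_eq hf hB μ hw hw M
    obtain ⟨i2, e2⟩ := tail_eq hf hB μ hw' hw M
    obtain ⟨i3, e3⟩ := head_eq hf hB μ hw' hw M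
    obtain ⟨i4, e4⟩ := head_eq hf hB μ hw' hw' M
    have d1 : |hd f μ w w M - hd f μ w' w M| ≤ ε := by
      rw [e1, e2, ← integral_sub i1 i2, ← Real.norm_eq_abs]
      refine (norm_integral_le_of_norm_le_const (C := ε) (ae_of_all _ fun G => ?_)).trans_eq (by simp)
      have := prob_tilted μ (measurable_ham_right hf hw G) fun s => abs_ham_le hB w G s
      simpa [Real.norm_eq_abs] using hε (μ.tilted (ham f w G)) this
    have d2 : |hd f μ w' w M - hd f μ w' w' M| ≤ M * ε := by
      rw [e3, e4, ← integral_sub i3 i4, ← Real.norm_eq_abs]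
      refine (norm_integral_le_of_norm_le_const (C := M * ε) (ae_of_all _ fun g => ?_)).trans_eq (by simp)
      simpa [Real.norm_eq_abs] using
        ih _ (prob_tilted μ (measurable_pot hf hw' g) fun s => hB _)
    rw [F_succ, F_succ]
    refine (abs_sub_le _ (hd f μ w' w M) _).trans ?_
    push_cast
    linarith

/-- Restricting the configurations costs the logarithm of their probability. -/
theorem F_restrict (μ : Measure S) [IsProbabilityMeasure μ] {w : S → Fin n → ℝ} (hw : Measurable w)
    {A : Set S} (hA : MeasurableSet A) (hA0 : 0 < μ.real A) (M : ℕ)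
    (ν : Measure S) [IsProbabilityMeasure ν] (hν : ν = (μ A)⁻¹ • μ.restrict A) :
    F f ν w M + Real.log (μ.real A) ≤ F f μ w M := by
  have h : ∀ G : Fin M → Fin n → ℝ, lse ν (ham f w G) + Real.log (μ.real A) ≤ lse μ (ham f w G) := fun G => by
    have hi := integrable_exp' μ (measurable_ham_right hf hw G) fun s => abs_ham_le hB w G s
    have hp := lt_of_lt_of_le (Real.exp_pos _)
      (exp_le_integral ν (measurable_ham_right hf hw G) fun s => abs_ham_le hB w G s)
    unfold lse
    rw [← Real.log_mul hp.ne' hA0.ne']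
    refine Real.log_le_log (mul_pos hp hA0) ?_
    rw [hν, integral_smul_measure, smul_eq_mul, mul_comm, ← mul_assoc]
    have : μ.real A * ((μ A)⁻¹).toReal = 1 := by
      rw [ENNReal.toReal_inv]; exact mul_inv_cancel₀ hA0.ne'
    rw [this, one_mul]
    exact setIntegral_le_integral hi (ae_of_all _ fun s => (Real.exp_pos _).le)
  have := integral_mono ((integrable_F hf hB ν hw M).fun_add (integrable_const (Real.log (μ.real A))))
    (integrable_F hf hB μ hw M) h
  rw [integral_add (integrable_F hf hB ν hw M) (integrable_const _)] at this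
  simpa [F] using this

omit hB in
/-- Change of configuration variable. -/
theorem F_map {T : Type*} [MeasurableSpace T] (μ : Measure T) {φ : T → S} (hφ : Measurable φ)
    {w : S → Fin n → ℝ} (hw : Measurable w) (M : ℕ) :
    F f (μ.map φ) w M = F f μ (fun t => w (φ t)) M := by
  unfold F lse
  refine integral_congr_ae (ae_of_all _ fun G => ?_)
  simp only
  rw [integral_map hφ.aemeasurable (measurable_ham_right hf hw G).exp.aestronglyMeasurable]
  rfl

/-- Only the occupied coordinates of the patterns matter. -/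
theorem F_embed {m : ℕ} (μ : Measure S) [IsProbabilityMeasure μ] {c : Fin m → Fin n}
    (hc : Function.Injective c) {u : S → Fin m → ℝ} (hu : Measurable u) {u' : S → Fin n → ℝ}
    (hd : ∀ s g, dot g (u' s) = dot (fun i => g (c i)) (u s)) (M : ℕ) :
    F f μ u' M = F f μ u M := by
  have hp := mp_sub (n := n) hc (M := M) (e := id) Function.injective_id
  unfold F
  conv_rhs => rw [← hp.map_eq]
  rw [integral_map hp.measurable.aemeasurable]
  · refine integral_congr_ae (ae_of_all _ fun G => ?_)
    simp only [lse, ham, hd, id]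
  · rw [hp.map_eq]; exact (integrable_F hf hB μ hu M).aestronglyMeasurable

end Vale.Agent.P157.Sphere
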