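import Vale.Agent.P157.Sphere.Split
import Vale.Agent.P157.Main

/-!
Existence of the limiting free energy of a class of spherical perceptrons at every pattern density.
-/

open MeasureTheory ProbabilityTheory Filter Topology Real Set

namespace Vale.Agent.P157.Sphere

theorem h34_nonneg (x : ℝ) : 0 ≤ h34 x := by unfold h34; positivity

theorem h34_mul {x : ℝ} (hx : 0 ≤ x) (y : ℝ) : h34 (x * y) = h34 x * h34 y := by
  unfold h34
  rw [Real.sqrt_mul hx, Real.sqrt_mul (Real.sqrt_nonneg x)]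
  ring

theorem h34_eq {x : ℝ} (hx : 0 < x) : h34 x = x / √√x := by
  have h1 : √√x ≠ 0 := (Real.sqrt_pos.2 (Real.sqrt_pos.2 hx)).ne'
  rw [eq_div_iff h1, h34, mul_assoc, Real.mul_self_sqrt (Real.sqrt_nonneg _), Real.mul_self_sqrt hx.le]

theorem h34_balanced {x y : ℝ} (hx : 0 < x) (hy : 0 < y) (hxy : x ≤ y) (h : y ≤ 2 * x) :
    11 / 10 * h34 (x + y) ≤ h34 x + h34 y := by
  set q := x + y
  have hq : 0 < q := add_pos hx hy
  set s := √√(2 * q / 3)
  have hs : 0 < s := by positivity
  have h1 : ∀ z, 0 < z → z ≤ 2 * q / 3 → z / s ≤ h34 z := fun z hz hle => by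
    rw [h34_eq hz]
    exact div_le_div_of_nonneg_left hz.le (by positivity) (Real.sqrt_le_sqrt (Real.sqrt_le_sqrt hle))
  have h2 : 11 / 10 * s ≤ √√q := by
    rw [Real.le_sqrt (by positivity) (Real.sqrt_nonneg _), Real.le_sqrt (by positivity) hq.le, mul_pow,
      mul_pow, ← pow_mul s, show s ^ (2 * 2) = (s ^ 2) ^ 2 by ring,
      Real.sq_sqrt (Real.sqrt_nonneg _), Real.sq_sqrt (by positivity)]
    linarith
  refine le_trans ?_ (add_le_add (h1 x hx (by simp only [q]; linarith)) (h1 y hy (by simp only [q]; linarith)))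
  rw [← add_div, h34_eq hq, le_div_iff₀ hs]
  calc 11 / 10 * (q / √√q) * s = q * (11 / 10 * s / √√q) := by ring
    _ ≤ q * 1 := mul_le_mul_of_nonneg_left (div_le_one_of_le₀ h2 (Real.sqrt_nonneg _)) hq.le
    _ = x + y := mul_one q

theorem tendsto_h34 : Tendsto (fun n : ℕ => h34 n / n) atTop (𝓝 0) := by
  have h1 : Tendsto (fun n : ℕ => (√√(n : ℝ))⁻¹) atTop (𝓝 0) := tendsto_inv_atTop_zero.comp
    (Real.tendsto_sqrt_atTop.comp (Real.tendsto_sqrt_atTop.comp tendsto_natCast_atTop_atTop))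
  refine h1.congr' ?_
  filter_upwards [eventually_gt_atTop 0] with n hn
  have hn' : (0 : ℝ) < n := by exact_mod_cast hn
  rw [h34_eq hn', div_div_cancel_left' hn'.ne']

/-- Nearly superadditive sequences of linear growth have an asymptotic slope. -/
theorem tendsto_slope {u : ℕ → ℝ} {C K : ℝ} (hC : ∀ n, |u n| ≤ C * n) (hK : 0 ≤ K)
    (hs : ∀ a b, 0 < a → 0 < b → u a + u b - K * h34 ((a + b : ℕ) : ℝ) ≤ u (a + b)) :
    ∃ L, Tendsto (fun n : ℕ => u n / n) atTop (𝓝 L) := by
  have hC0 : 0 ≤ C := by simpa using (abs_nonneg _).trans (hC 1)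
  have hu0 : u 0 = 0 := by simpa using hC 0
  have hblock : ∀ m : ℕ, 0 < m → ∀ q : ℕ, 0 < q →
      (q : ℝ) * u m - 10 * K * ((q : ℝ) - h34 q) * h34 m ≤ u (q * m) := by
    intro m hm q
    induction q using Nat.strong_induction_on with
    | _ q ih =>
      intro hq
      rcases Nat.lt_or_ge q 2 with h2 | h2
      · obtain rfl : q = 1 := by omega
        simp [h34]
      obtain ⟨x, y, rfl, hx, hxy, hyx⟩ : ∃ x y, q = x + y ∧ 0 < x ∧ x ≤ y ∧ y ≤ 2 * x :=
        ⟨q / 2, q - q / 2, by omega, by omega, by omega, by omega⟩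
      have i1 := ih x (by omega) hx
      have i2 := ih y (by omega) (by omega)
      have h3 := hs (x * m) (y * m) (by positivity) (Nat.mul_pos (by omega) hm)
      rw [← add_mul, Nat.cast_mul, h34_mul (Nat.cast_nonneg _)] at h3
      have h4 := h34_balanced (x := (x : ℝ)) (y := (y : ℝ)) (by exact_mod_cast hx)
        (by exact_mod_cast (show 0 < y by omega)) (by exact_mod_cast hxy) (by exact_mod_cast hyx)
      have h5 := mul_le_mul_of_nonneg_left h4
        (show 0 ≤ 10 * K * h34 m from mul_nonneg (by positivity) (h34_nonneg _))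
      push_cast at h3 ⊢
      linarith
  set g : ℕ → ℝ := fun k => u (k + 1) / ((k + 1 : ℕ) : ℝ) - 10 * K * (h34 ((k + 1 : ℕ) : ℝ) / ((k + 1 : ℕ) : ℝ))
  have hgb : BddAbove (Set.range g) := by
    refine ⟨C, ?_⟩
    rintro _ ⟨k, rfl⟩
    have h1 : u (k + 1) / ((k + 1 : ℕ) : ℝ) ≤ C :=
      (div_le_iff₀ (by positivity)).2 ((le_abs_self _).trans (hC _))
    have h2 : 0 ≤ 10 * K * (h34 ((k + 1 : ℕ) : ℝ) / ((k + 1 : ℕ) : ℝ)) :=
      mul_nonneg (by positivity) (div_nonneg (h34_nonneg _) (by positivity))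
    simp only [g]; linarith
  refine ⟨⨆ k, g k, Metric.tendsto_atTop.2 fun ε hε => ?_⟩
  set L := ⨆ k, g k
  obtain ⟨k, hk⟩ := exists_lt_of_lt_ciSup (show L - ε / 3 < L by linarith)
  set m := k + 1
  set W := (|g k| + C) * m
  have hW : 0 ≤ W := by positivity
  obtain ⟨N₁, hN₁⟩ := Metric.tendsto_atTop.1 tendsto_h34 (ε / (3 * (10 * K + 1))) (by positivity)
  obtain ⟨N₂, hN₂⟩ := exists_nat_gt (3 * W / ε)
  refine ⟨max (max N₁ N₂) m, fun n hn => ?_⟩
  simp only [ge_iff_le, max_le_iff] at hn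
  have hn0 : 0 < n := by omega
  have hn' : (0 : ℝ) < n := by exact_mod_cast hn0
  have hh := hN₁ n hn.1.1
  rw [Real.dist_eq, sub_zero, abs_of_nonneg (div_nonneg (h34_nonneg _) hn'.le)] at hh
  have hh' : (10 * K + 1) * (h34 n / n) < ε / 3 := by
    calc _ < (10 * K + 1) * (ε / (3 * (10 * K + 1))) := mul_lt_mul_of_pos_left hh (by positivity)
      _ = ε / 3 := by field_simp
  have hW' : W / n ≤ ε / 3 := by
    rw [div_le_iff₀ hn']
    have h2 : (N₂ : ℝ) ≤ n := by exact_mod_cast hn.1.2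
    rw [div_lt_iff₀ hε] at hN₂
    nlinarith
  have hlow : g k * n - W - K * h34 n ≤ u n := by
    have hq : 0 < n / m := Nat.div_pos hn.2 (Nat.succ_pos k)
    have hdm : n / m * m + n % m = n := by rw [mul_comm]; exact Nat.div_add_mod n m
    have hb := hblock m (Nat.succ_pos k) (n / m) hq
    have hr : (n % m : ℕ) ≤ (m : ℝ) := by exact_mod_cast (Nat.mod_lt n (Nat.succ_pos k)).le
    have hsplit : u (n / m * m) - C * m - K * h34 n ≤ u n := by
      rcases Nat.eq_zero_or_pos (n % m) with h0 | h0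
      · rw [show n / m * m = n by omega]
        linarith [mul_nonneg hK (h34_nonneg n), mul_nonneg hC0 (Nat.cast_nonneg m)]
      · have := hs _ _ (Nat.mul_pos hq (Nat.succ_pos k)) h0
        rw [hdm] at this
        linarith [neg_le_of_abs_le (hC (n % m)), mul_le_mul_of_nonneg_left hr hC0]
    have hgk : ((n / m : ℕ) : ℝ) * u m - 10 * K * ((n / m : ℕ) : ℝ) * h34 m
        = ((n / m * m : ℕ) : ℝ) * g k := by
      simp only [g, m]; push_cast; field_simp
    have hcast : ((n / m * m : ℕ) : ℝ) = n - ((n % m : ℕ) : ℝ) := by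
      rw [eq_sub_iff_add_eq, ← Nat.cast_add, hdm]
    rw [hcast] at hgk
    have h6 : g k * ((n % m : ℕ) : ℝ) ≤ |g k| * m :=
      (mul_le_mul_of_nonneg_right (le_abs_self _) (Nat.cast_nonneg _)).trans
        (mul_le_mul_of_nonneg_left hr (abs_nonneg _))
    have h7 : 0 ≤ 10 * K * h34 ((n / m : ℕ) : ℝ) * h34 m :=
      mul_nonneg (mul_nonneg (by positivity) (h34_nonneg _)) (h34_nonneg _)
    simp only [W]
    linarith
  have hlow' : g k - W / n - K * (h34 n / n) ≤ u n / n := by
    rw [le_div_iff₀ hn']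
    refine le_trans (le_of_eq ?_) hlow
    field_simp
  have hup : u n / n - 10 * K * (h34 n / n) ≤ L := by
    have := le_ciSup hgb (n - 1)
    simp only [g, Nat.sub_add_cancel hn0] at this
    exact this
  have := div_nonneg (h34_nonneg (n : ℝ)) hn'.le
  rw [Real.dist_eq, abs_lt]
  constructor <;> nlinarith

variable {α : ℝ}

theorem spr_bound {f : ℝ → ℝ} {B : ℝ} (hf : Measurable f) (hB : ∀ x, |f x| ≤ B) (hα : 0 < α) (n : ℕ) :
    |spr f n ⌊α * n⌋₊| ≤ α * B * n := by
  refine (abs_F_le hf hB (gs n) measurable_dir _).trans ?_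
  rw [mul_assoc, mul_comm B, ← mul_assoc]
  exact mul_le_mul_of_nonneg_right (Nat.floor_le (by positivity)) ((abs_nonneg _).trans (hB 0))

/-- The sphere free energy has a limit for Lipschitz potentials with the one-pattern property. -/
theorem tendsto_spr_lip {f : ℝ → ℝ} {B L : ℝ} (hf : Measurable f) (hB : ∀ x, |f x| ≤ B)
    (hOP : OnePatM f) (hL : ∀ x y, |f x - f y| ≤ L * |x - y|) (hL0 : 0 ≤ L) (hα : 0 < α) :
    ∃ l, Tendsto (fun n : ℕ => spr f n ⌊α * n⌋₊ / n) atTop (𝓝 l) := by
  have hB0 : 0 ≤ B := (abs_nonneg _).trans (hB 0)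
  exact tendsto_slope (C := α * B) (K := 5 * α * Real.exp (2 * B) * L + B * (α + 5) + 3)
    (spr_bound hf hB hα) (by positivity) fun a b ha hb => superadd hf hB hOP hL hL0 hα ha hb

theorem log_lip {c x y : ℝ} (hc : c < 1) (hx : x ≤ c) (hy : y ≤ c) :
    |Real.log (1 - x) - Real.log (1 - y)| ≤ |x - y| / (1 - c) := by
  have key : ∀ x y : ℝ, x ≤ c → y ≤ c →
      Real.log (1 - x) - Real.log (1 - y) ≤ |x - y| / (1 - c) := fun x y hx hy => by
    have h := Real.log_le_sub_one_of_pos (div_pos (show 0 < 1 - x by linarith) (show 0 < 1 - y by linarith))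
    rw [Real.log_div (by linarith) (by linarith)] at h
    calc _ ≤ (1 - x) / (1 - y) - 1 := h
      _ = (y - x) / (1 - y) := by rw [div_sub_one (by linarith)]; ring
      _ ≤ |x - y| / (1 - y) :=
        div_le_div_of_nonneg_right (by rw [abs_sub_comm]; exact le_abs_self _) (by linarith)
      _ ≤ _ := div_le_div_of_nonneg_left (abs_nonneg _) (by linarith) (by linarith)
  have h2 := key y x hy hx
  rw [abs_sub_comm y x] at h2
  exact abs_le.2 ⟨by linarith, key x y hx hy⟩

theorem lse_sub_le {S : Type*} [MeasurableSpace S] (μ : Measure S) [IsProbabilityMeasure μ]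
    {φ ψ : S → ℝ} {C η : ℝ} (hφ : Measurable φ) (hψ : Measurable ψ) (h1 : ∀ s, |φ s| ≤ C)
    (h2 : ∀ s, |ψ s| ≤ C) (h : ∀ s, φ s ≤ ψ s + η) : lse μ φ ≤ lse μ ψ + η := by
  have hP := lt_of_lt_of_le (Real.exp_pos _) (exp_le_integral μ hφ h1)
  have hQ := lt_of_lt_of_le (Real.exp_pos _) (exp_le_integral μ hψ h2)
  have : ∫ s, Real.exp (φ s) ∂μ ≤ (∫ s, Real.exp (ψ s) ∂μ) * Real.exp η := by
    rw [← integral_mul_const]
    exact integral_mono (integrable_exp' μ hφ h1) ((integrable_exp' μ hψ h2).mul_const _) fun s => by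
      rw [← Real.exp_add]; exact Real.exp_le_exp.2 (h s)
  have h3 := Real.log_le_log hP this
  rwa [Real.log_mul hQ.ne' (Real.exp_pos _).ne', Real.log_exp] at h3

/-- Uniformly close potentials have close pressures. -/
theorem spr_close {f f' : ℝ → ℝ} {B η : ℝ} (hf : Measurable f) (hB : ∀ x, |f x| ≤ B)
    (hf' : Measurable f') (hB' : ∀ x, |f' x| ≤ B) (h : ∀ x, |f x - f' x| ≤ η) (n M : ℕ) :
    |spr f n M - spr f' n M| ≤ M * η := by
  unfold spr F
  rw [← integral_sub (integrable_F hf hB _ measurable_dir M) (integrable_F hf' hB' _ measurable_dir M),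
    ← Real.norm_eq_abs]
  refine (norm_integral_le_of_norm_le_const (C := M * η) (ae_of_all _ fun G => ?_)).trans_eq (by simp)
  rw [Real.norm_eq_abs, abs_le]
  have hd : ∀ s, |ham f dir G s - ham f' dir G s| ≤ M * η := fun s => by
    unfold ham
    rw [← Finset.sum_sub_distrib]
    exact (Finset.abs_sum_le_sum_abs _ _).trans ((Finset.sum_le_sum fun a _ => h _).trans_eq (by simp))
  have m1 := measurable_ham_right hf measurable_dir G
  have m2 := measurable_ham_right hf' measurable_dir G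
  have b1 := fun s => abs_ham_le hB dir G s
  have b2 := fun s => abs_ham_le hB' dir G s
  constructor
  · linarith [lse_sub_le (gs n) (η := M * η) m2 m1 b2 b1 fun s => by linarith [abs_le.1 (hd s)]]
  · linarith [lse_sub_le (gs n) (η := M * η) m1 m2 b1 b2 fun s => by linarith [abs_le.1 (hd s)]]

/-- The free energy on the sphere has a limit at every pattern density. -/
theorem tendsto_spr (ρ : Measure ℝ) [IsFiniteMeasure ρ] (hρ : ρ.real Set.univ < 1) (κ : ℝ)
    {f : ℝ → ℝ} (hf : ∀ x, f x = κ + Real.log (1 - cosT ρ x)) (hα : 0 < α) :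
    ∃ l, Tendsto (fun n : ℕ => spr f n ⌊α * n⌋₊ / n) atTop (𝓝 l) := by
  set c := ρ.real Set.univ
  set B := |κ| + -Real.log (1 - c)
  set I : ℕ → Set ℝ := fun k => Set.Icc (-(k : ℝ)) k
  set fk : ℕ → ℝ → ℝ := fun k x => κ + Real.log (1 - cosT (ρ.restrict (I k)) x)
  have hmass : ∀ k, (ρ.restrict (I k)).real Set.univ ≤ c := fun k => by
    rw [measureReal_restrict_apply_univ]; exact measureReal_mono (Set.subset_univ _)
  have hmeas : ∀ (ρ' : Measure ℝ) [IsFiniteMeasure ρ'],
      Measurable fun x => κ + Real.log (1 - cosT ρ' x) := fun ρ' _ =>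
    ((measurable_const.sub (continuous_cosT ρ').measurable).log).const_add κ
  have hfm : Measurable f := by rw [funext hf]; exact hmeas ρ
  have hB : ∀ x, |f x| ≤ B := fun x => by
    rw [hf]; exact (abs_add_le _ _).trans (add_le_add le_rfl (cosT_pot_bound ρ hρ x))
  have hBk : ∀ k x, |fk k x| ≤ B := fun k x => by
    refine (abs_add_le _ _).trans (add_le_add le_rfl ((cosT_pot_bound (ρ.restrict (I k))
      ((hmass k).trans_lt hρ) x).trans (neg_le_neg (Real.log_le_log (by linarith) ?_))))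
    linarith [hmass k]
  have hlip : ∀ (k : ℕ) x y, |fk k x - fk k y| ≤ k / (1 - c) * |x - y| := fun k x y => by
    simp only [fk, add_sub_add_left_eq_sub]
    refine (log_lip hρ ((abs_le.1 (abs_cosT_le _ x)).2.trans (hmass k))
      ((abs_le.1 (abs_cosT_le _ y)).2.trans (hmass k))).trans ?_
    rw [div_mul_eq_mul_div]
    refine div_le_div_of_nonneg_right ?_ (by linarith)
    have hi : ∀ z : ℝ, Integrable (fun t => Real.cos (t * z)) (ρ.restrict (I k)) := fun z =>
      Integrable.of_bound (by fun_prop) 1 (ae_of_all _ fun t => by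
        simpa [Real.norm_eq_abs] using Real.abs_cos_le_one _)
    rw [cosT, cosT, ← integral_sub (hi x) (hi y), ← Real.norm_eq_abs]
    have h1 : ∀ᵐ t ∂ρ.restrict (I k), ‖Real.cos (t * x) - Real.cos (t * y)‖ ≤ k * |x - y| := by
      filter_upwards [ae_restrict_mem measurableSet_Icc] with t ht
      rw [Real.norm_eq_abs]
      refine (Real.abs_cos_sub_cos_le _ _).trans ?_
      rw [← mul_sub, abs_mul]
      exact mul_le_mul_of_nonneg_right (abs_le.2 ⟨ht.1, ht.2⟩) (abs_nonneg _)
    refine (norm_integral_le_of_norm_le_const h1).trans ?_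
    exact mul_le_of_le_one_right (by positivity) ((hmass k).trans hρ.le)
  set η : ℕ → ℝ := fun k => ρ.real (I k)ᶜ / (1 - c)
  have hclose : ∀ k x, |f x - fk k x| ≤ η k := fun k x => by
    simp only [hf, fk, add_sub_add_left_eq_sub]
    refine (log_lip hρ (abs_le.1 (abs_cosT_le ρ x)).2
      ((abs_le.1 (abs_cosT_le _ x)).2.trans (hmass k))).trans
      (div_le_div_of_nonneg_right ?_ (by linarith))
    have hi : Integrable (fun t => Real.cos (t * x)) ρ :=
      Integrable.of_bound (by fun_prop) 1 (ae_of_all _ fun t => by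
        simpa [Real.norm_eq_abs] using Real.abs_cos_le_one _)
    rw [cosT, cosT, ← integral_add_compl measurableSet_Icc hi, add_sub_cancel_left]
    refine (Real.norm_eq_abs _).symm.trans_le ((norm_setIntegral_le_of_norm_le_const (C := 1)
      (measure_lt_top _ _) fun t _ => ?_).trans_eq (one_mul _))
    simpa [Real.norm_eq_abs] using Real.abs_cos_le_one _
  have hη : Tendsto η atTop (𝓝 0) := by
    have h := tendsto_measure_iInter_atTop (μ := ρ) (s := fun k : ℕ => (I k)ᶜ)
      (fun k => measurableSet_Icc.compl.nullMeasurableSet)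
      (fun a b hab => Set.compl_subset_compl.2 (Set.Icc_subset_Icc (neg_le_neg (by exact_mod_cast hab))
        (by exact_mod_cast hab))) ⟨0, measure_ne_top _ _⟩
    have he : ⋂ k : ℕ, (I k)ᶜ = ∅ := by
      refine Set.eq_empty_of_forall_notMem fun t ht => ?_
      obtain ⟨k, hk⟩ := exists_nat_ge |t|
      exact Set.mem_iInter.1 ht k (abs_le.1 hk)
    rw [he, measure_empty] at h
    simpa [η, measureReal_def] using ((ENNReal.tendsto_toReal ENNReal.zero_ne_top).comp h).div_const (1 - c)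
  have hlim : ∀ k, ∃ l, Tendsto (fun n : ℕ => spr (fk k) n ⌊α * n⌋₊ / n) atTop (𝓝 l) := fun k =>
    tendsto_spr_lip (hmeas _) (hBk k)
      (onePatM_of_cosT (ρ.restrict (I k)) ((hmass k).trans_lt hρ) κ fun x => rfl) (hlip k)
      (div_nonneg (Nat.cast_nonneg k) (by linarith)) hα
  refine cauchySeq_tendsto_of_complete (Metric.cauchySeq_iff'.2 fun ε hε => ?_)
  obtain ⟨k, hk⟩ := Metric.tendsto_atTop.1 hη (ε / (8 * α)) (by positivity)
  have hηk := hk k le_rfl
  rw [Real.dist_eq, sub_zero] at hηk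
  obtain ⟨l, hl⟩ := hlim k
  obtain ⟨N, hN⟩ := Metric.tendsto_atTop.1 hl (ε / 4) (by positivity)
  have hd : ∀ n, |spr f n ⌊α * n⌋₊ / n - spr (fk k) n ⌊α * n⌋₊ / n| ≤ ε / 8 := fun n => by
    rcases Nat.eq_zero_or_pos n with rfl | hn
    · simp; positivity
    have hn' : (0 : ℝ) < n := by exact_mod_cast hn
    rw [← sub_div, abs_div, abs_of_pos hn', div_le_iff₀ hn']
    refine (spr_close hfm hB (hmeas _) (hBk k) (hclose k) n _).trans ?_
    have h1 : η k ≤ ε / (8 * α) := (le_abs_self _).trans hηk.le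
    refine (mul_le_mul_of_nonneg_left h1 (Nat.cast_nonneg _)).trans ?_
    refine (mul_le_mul_of_nonneg_right (Nat.floor_le (by positivity)) (by positivity)).trans (le_of_eq ?_)
    field_simp
  refine ⟨N, fun n hn => ?_⟩
  have a1 := hN n hn
  have a2 := hN N le_rfl
  have a3 := hd n
  have a4 := hd N
  rw [Real.dist_eq, abs_lt] at *
  rw [abs_le] at a3 a4
  constructor <;> linarith

/-- The pressure on the sphere with its normalised surface measure. -/
theorem spr_eq_sphere {n : ℕ} (hn : 0 < n) {f : ℝ → ℝ} (hf : Measurable f) (M : ℕ) :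
    spr f n M = ∫ G : Fin M → Fin n → ℝ, Real.log (⨍ x : Metric.sphere (0 : EuclideanSpace ℝ (Fin n)) 1,
      Real.exp (∑ a, f ((∑ i, G a i * (√(n : ℝ) * (x : EuclideanSpace ℝ (Fin n)) i)) / √(n : ℝ)))
      ∂(volume : Measure (EuclideanSpace ℝ (Fin n))).toSphere) ∂pats n M := by
  have h1 : F f ((gs n).map dir) id M = spr f n M := F_map hf _ measurable_dir measurable_id M
  have h2 : F f ((unifS n).map pt) id M = F f (unifS n) pt M := F_map hf _ measurable_pt measurable_id M
  rw [← h1, (polar_norm hn).2, h2]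
  unfold F lse ham dot pt unifS average
  refine integral_congr_ae (ae_of_all _ fun G => congrArg Real.log (integral_congr_ae (ae_of_all _ fun x => ?_)))
  have hs : √(n : ℝ) ≠ 0 := (Real.sqrt_pos.2 (by exact_mod_cast hn)).ne'
  simp only [mul_left_comm _ (√(n : ℝ)), ← Finset.mul_sum, mul_div_cancel_left₀ _ hs]

end Vale.Agent.P157.Sphere
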