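import Vale.Agent.P157.Sphere.Formula
import Vale.Agent.P157.Sphere.Main
import Vale.Agent.P157.Ising.Bridge
import Vale.Agent.P157.Formula.Borel

/-!
P157, sphere: Gaussian `L¹` stability of the pressure and of the formula in the potential, and the
passage from smooth potentials to bounded Borel potentials.
-/

open MeasureTheory ProbabilityTheory Filter Topology Real

namespace Vale.Agent.P157.Sphere

open Formula (gm integrable_bdd abs_integral_le)

variable {S : Type*} [MeasurableSpace S] {n : ℕ}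

/-- Potentials close in Gaussian mean give close pressures on unit configurations. -/
theorem F_potential {f f' : ℝ → ℝ} {B : ℝ} (hf : Measurable f) (hB : ∀ x, |f x| ≤ B)
    (hf' : Measurable f') (hB' : ∀ x, |f' x| ≤ B) {w : S → Fin n → ℝ} (hw : Measurable w)
    (hu : ∀ s, ∑ i, w s i ^ 2 = 1) :
    ∀ (M : ℕ) (μ : Measure S), IsProbabilityMeasure μ →
      |F f μ w M - F f' μ w M| ≤ M * (Real.exp (2 * B) * ∫ x, |f x - f' x| ∂gm) := by
  set ε := Real.exp (2 * B) * ∫ x, |f x - f' x| ∂gm
  have hgain : ∀ ν : Measure S, IsProbabilityMeasure ν →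
      |∫ g, (gain f ν w g - gain f' ν w g) ∂gs n| ≤ ε := by
    intro ν hν
    set d : ℝ → ℝ := fun x => |f x - f' x|
    have hdm : Measurable d := (hf.sub hf').abs
    have hd : ∀ x, |d x| ≤ 2 * B := fun x => by
      simp only [d, abs_abs]; linarith [abs_sub (f x) (f' x), hB x, hB' x]
    have hΦ : Integrable (fun p : (Fin n → ℝ) × S => d (dot p.1 (w p.2))) ((gs n).prod ν) :=
      Integrable.of_bound (hdm.comp (by unfold dot; fun_prop)).aestronglyMeasurable (2 * B)
        (ae_of_all _ fun p => by rw [Real.norm_eq_abs]; exact hd _)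
    refine abs_integral_le_integral_abs.trans ((integral_mono_of_nonneg
      (ae_of_all _ fun g => abs_nonneg _) (hΦ.integral_prod_left.const_mul (Real.exp (2 * B)))
      (ae_of_all _ fun g => lse_lip ν (measurable_pot hf hw g) (measurable_pot hf' hw g)
        (fun s => hB _) fun s => hB' _)).trans_eq ?_)
    rw [integral_const_mul, integral_integral_swap (f := fun g s => d (dot g (w s))) hΦ]
    refine congrArg (Real.exp (2 * B) * ·) ?_
    have e : ∀ s, ∫ g, d (dot g (w s)) ∂gs n = ∫ x, d x ∂gm := fun s => by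
      rw [show gm = gaussianReal 0 1 from rfl, ← P166.map_lin (w s) (hu s)]
      exact (integral_map (by fun_prop) hdm.aestronglyMeasurable).symm
    simp [e, d]
  intro M
  induction M with
  | zero => intro μ _; simp [F_zero]
  | succ M ih =>
    intro μ hμ
    set A : (Fin n → ℝ) × (Fin M → Fin n → ℝ) → ℝ :=
      fun p => lse μ (fun s => f (dot p.1 (w s)) + ham f w p.2 s)
    set C : (Fin n → ℝ) × (Fin M → Fin n → ℝ) → ℝ :=
      fun p => lse μ (fun s => f' (dot p.1 (w s)) + ham f' w p.2 s)
    set D : (Fin n → ℝ) × (Fin M → Fin n → ℝ) → ℝ :=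
      fun p => lse μ (fun s => f' (dot p.1 (w s)) + ham f w p.2 s)
    have iA : Integrable A ((gs n).prod (pats n M)) := integrable_hd_prod hf hB μ hw hw M
    have iC : Integrable C ((gs n).prod (pats n M)) := integrable_hd_prod hf' hB' μ hw hw M
    have iD : Integrable D ((gs n).prod (pats n M)) := by
      refine Integrable.of_bound (Measurable.aestronglyMeasurable ?_) (B + M * B) (ae_of_all _ fun p => ?_)
      · exact measurable_lse μ (φ := fun q : ((Fin n → ℝ) × (Fin M → Fin n → ℝ)) × S =>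
          f' (dot q.1.1 (w q.2)) + ham f w q.1.2 q.2) (by unfold ham dot; fun_prop)
      · rw [Real.norm_eq_abs]
        exact abs_lse_le μ ((measurable_pot hf' hw _).add (measurable_ham_right hf hw _)) fun s =>
          (abs_add_le _ _).trans (add_le_add (hB' _) (abs_ham_le hB w _ s))
    have h1 : |∫ p, (A p - D p) ∂(gs n).prod (pats n M)| ≤ ε := by
      rw [integral_prod_symm (fun p => A p - D p) (iA.sub iD), ← Real.norm_eq_abs]
      refine (norm_integral_le_of_norm_le_const (C := ε) (ae_of_all _ fun G => ?_)).trans_eq (by simp)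
      have hp := prob_tilted μ (measurable_ham_right hf hw G) fun s => abs_ham_le hB w G s
      rw [Real.norm_eq_abs]
      refine le_of_eq_of_le (congrArg abs (integral_congr_ae (ae_of_all _ fun g => ?_))) (hgain _ hp)
      have e : ∀ {h : ℝ → ℝ}, Measurable h → (∀ x, |h x| ≤ B) →
          lse μ (fun s => h (dot g (w s)) + ham f w G s)
            = lse μ (ham f w G) + gain h (μ.tilted (ham f w G)) w g := fun {h} hh hhB => by
        rw [gain, ← lse_add μ (measurable_ham_right hf hw G) (fun s => abs_ham_le hB w G s)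
          (measurable_pot hh hw g) (fun s => hhB _)]
        simp only [add_comm]
      simp only [A, D, e hf hB, e hf' hB']
      ring
    have h2 : |∫ p, (D p - C p) ∂(gs n).prod (pats n M)| ≤ M * ε := by
      rw [integral_prod (fun p => D p - C p) (iD.sub iC), ← Real.norm_eq_abs]
      refine (norm_integral_le_of_norm_le_const (C := M * ε) (ae_of_all _ fun g => ?_)).trans_eq (by simp)
      have hp := prob_tilted μ (measurable_pot hf' hw g) fun s => hB' _
      rw [Real.norm_eq_abs]
      refine le_of_eq_of_le (congrArg abs ?_) (ih _ hp)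
      rw [F, F, ← integral_sub (integrable_F hf hB _ hw M) (integrable_F hf' hB' _ hw M)]
      refine integral_congr_ae (ae_of_all _ fun G => ?_)
      simp only [D, C, lse_add μ (measurable_pot hf' hw g) (fun s => hB' _)
        (measurable_ham_right hf hw _) (fun s => abs_ham_le hB w _ s),
        lse_add μ (measurable_pot hf' hw g) (fun s => hB' _)
        (measurable_ham_right hf' hw _) (fun s => abs_ham_le hB' w _ s)]
      ring
    rw [F_succ, F_succ, hd_eq_prod hf hB μ hw hw M, hd_eq_prod hf' hB' μ hw hw M,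
      ← integral_sub iA iC]
    calc |∫ p, (A p - C p) ∂(gs n).prod (pats n M)|
        = |(∫ p, (A p - D p) ∂(gs n).prod (pats n M)) + ∫ p, (D p - C p) ∂(gs n).prod (pats n M)| := by
          rw [integral_sub iA iD, integral_sub iD iC, integral_sub iA iC, sub_add_sub_cancel]
      _ ≤ ε + M * ε := (abs_add_le _ _).trans (add_le_add h1 h2)
      _ = _ := by push_cast; ring

theorem qn_pt (u : Metric.sphere (0 : EuclideanSpace ℝ (Fin n)) 1) : ∑ i, pt u i ^ 2 = 1 := by
  have h := EuclideanSpace.real_norm_sq_eq (u : EuclideanSpace ℝ (Fin n))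
  rw [mem_sphere_zero_iff_norm.1 u.2] at h
  simpa [pt] using h.symm

/-- Potentials close in Gaussian mean give close pressures on the sphere. -/
theorem spr_sub_le {f f' : ℝ → ℝ} {B : ℝ} (hf : Measurable f) (hB : ∀ x, |f x| ≤ B)
    (hf' : Measurable f') (hB' : ∀ x, |f' x| ≤ B) (hn : 0 < n) (M : ℕ) :
    |spr f n M - spr f' n M| ≤ M * (Real.exp (2 * B) * ∫ x, |f x - f' x| ∂gm) := by
  have e : ∀ h : ℝ → ℝ, Measurable h → spr h n M = F h (unifS n) pt M := fun h hh => by
    have h1 : F h ((gs n).map dir) id M = spr h n M := F_map hh _ measurable_dir measurable_id M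
    have h2 : F h ((unifS n).map pt) id M = F h (unifS n) pt M :=
      F_map hh _ measurable_pt measurable_id M
    rw [← h1, (polar_norm hn).2, h2]
  have : IsProbabilityMeasure (unifS n) := by
    have : IsProbabilityMeasure ((unifS n).map pt) := by
      rw [← (polar_norm hn).2]; exact Measure.isProbabilityMeasure_map measurable_dir.aemeasurable
    exact Measure.isProbabilityMeasure_of_map pt
  rw [e f hf, e f' hf']
  exact F_potential hf hB hf' hB' measurable_pt qn_pt M _ this

/-- The energy is Lipschitz for the Gaussian `L¹` distance, uniformly in the path. -/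
theorem energy_sub_le {K : ℕ} {f g : ℝ → ℝ} (hf : Measurable f) (hg : Measurable g) {B : ℝ}
    (hfB : ∀ x, |f x| ≤ B) (hgB : ∀ x, |g x| ≤ B) {q : Fin (K + 1) → ℝ} (hq : Monotone q)
    (h0 : 0 ≤ q 0) (h1 : q (Fin.last K) ≤ 1) :
    |energy f q - energy g q| ≤ Real.exp (3 * B) * ∫ x, |f x - g x| ∂gm := by
  set m : Fin (K + 1) → ℝ := fun l => ((l : ℕ) + 1) / ((K : ℝ) + 1)
  set w : Fin (K + 2) → ℝ := Fin.snoc q 1
  set d : Fin (K + 1) → ℝ := fun l => w l.succ - w l.castSucc
  have hm : Monotone m ∧ ∀ i, 0 < m i ∧ m i ≤ 1 := by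
    refine ⟨fun i j h => ?_, fun i => ⟨by positivity, ?_⟩⟩
    · simp only [m]
      have h' : ((i : ℕ) : ℝ) ≤ (j : ℕ) := by exact_mod_cast h
      gcongr
    · simp only [m]
      rw [div_le_one (by positivity)]
      have : ((i : ℕ) : ℝ) ≤ K := by exact_mod_cast Fin.is_le i
      linarith
  have hd0 : ∀ l, 0 ≤ d l := fun l => by
    induction l using Fin.lastCases with
    | last => simp [d, w]; linarith
    | cast l =>
      simp only [d, w, Fin.succ_castSucc, Fin.snoc_castSucc]
      linarith [hq (Fin.castSucc_le_succ l)]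
  have hsum : q 0 + ∑ l, d l = 1 := by
    have h := Formula.sum_incr w
    simp only [w, Fin.snoc_last] at h
    rwa [show (0 : Fin (K + 2)) = Fin.castSucc (0 : Fin (K + 1)) from rfl, Fin.snoc_castSucc] at h
  have e : ∀ h : ℝ → ℝ, energy h q = Formula.heat (Formula.nest (K + 1) m d h) (q 0) 0 := fun h => by
    simp only [energy, Formula.heat, zero_add]
    rw [Ising.grec_eq (K + 1) _ _ fun l => by positivity]
  have key : ∀ {f g : ℝ → ℝ}, Measurable f → Measurable g → (∀ x, |f x| ≤ B) → (∀ x, |g x| ≤ B) →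
      energy f q - energy g q ≤ Real.exp (3 * B) * ∫ x, |f x - g x| ∂gm := by
    intro f g hf hg hfB hgB
    have hB0 : 0 ≤ B := (abs_nonneg _).trans (hfB 0)
    obtain ⟨af, bf, ag, bg, h⟩ := Formula.nest_facts hf hg hfB hgB (K + 1) m d hm.1 hm.2 hd0
    have hh : 0 ≤ Formula.hd m ∧ Formula.hd m ≤ 1 := by
      simp only [Formula.hd, Nat.succ_pos, dite_true]
      exact ⟨(hm.2 _).1.le, (hm.2 _).2⟩
    have hb : ∀ y, |(fun y => |f y - g y|) y| ≤ 2 * B := fun y => by
      rw [abs_abs]; linarith [abs_sub (f y) (g y), hfB y, hgB y]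
    have hh2 : Measurable fun y => |f y - g y| := (hf.sub hg).abs
    set H := Formula.heat (fun y => |f y - g y|) (∑ l, d l)
    have hHm : Measurable H := (MeasureTheory.StronglyMeasurable.integral_prod_right
      (f := fun (x : ℝ) (g' : ℝ) => |f (x + √(∑ l, d l) * g') - g (x + √(∑ l, d l) * g')|)
      (hh2.comp (by fun_prop)).stronglyMeasurable).measurable
    have iH : Integrable (fun z => H (0 + √(q 0) * z)) gm :=
      integrable_bdd (B := 2 * B) (hHm.comp (by fun_prop)) fun z => abs_integral_le fun g' => hb _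
    have ia : Integrable (fun z => Formula.nest (K + 1) m d f (0 + √(q 0) * z)) gm :=
      integrable_bdd (af.comp (by fun_prop)) fun z => bf _
    have ib : Integrable (fun z => Formula.nest (K + 1) m d g (0 + √(q 0) * z)) gm :=
      integrable_bdd (ag.comp (by fun_prop)) fun z => bg _
    rw [e, e, Formula.heat, Formula.heat, ← integral_sub ia ib]
    calc ∫ z, (Formula.nest (K + 1) m d f (0 + √(q 0) * z) -
          Formula.nest (K + 1) m d g (0 + √(q 0) * z)) ∂gm
        ≤ ∫ z, Real.exp (3 * B) * H (0 + √(q 0) * z) ∂gm := by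
          refine integral_mono (ia.sub ib) (iH.const_mul _) fun z => ?_
          refine (h _).trans (mul_le_mul_of_nonneg_right (Real.exp_le_exp.2 ?_)
            (integral_nonneg fun _ => abs_nonneg _))
          nlinarith [(abs_le.1 (bf (0 + √(q 0) * z))).1, mul_le_mul_of_nonneg_left hh.2 hB0]
      _ = Real.exp (3 * B) * ∫ x, |f x - g x| ∂gm := by
          rw [integral_const_mul]
          congr 1
          have := Formula.heat_heat_bdd hh2 hb h0 (b := ∑ l, d l)
            (Finset.sum_nonneg fun l _ => hd0 l) 0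
          rw [hsum] at this
          refine (show _ = Formula.heat (fun y => |f y - g y|) 1 0 from this).trans ?_
          simp [Formula.heat]
  rw [abs_le]
  refine ⟨?_, key hf hg hfB hgB⟩
  have := key hg hf hgB hfB
  simp only [abs_sub_comm (g _)] at this
  linarith

theorem value_le_add {K : ℕ} {α : ℝ} (hα : 0 ≤ α) {f g : ℝ → ℝ} (hf : Measurable f)
    (hg : Measurable g) {B : ℝ} (hfB : ∀ x, |f x| ≤ B) (hgB : ∀ x, |g x| ≤ B) :
    value K α f ≤ value K α g + ((α * (Real.exp (3 * B) * ∫ x, |f x - g x| ∂gm) : ℝ) : EReal) := by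
  refine EReal.le_add_of_forall_gt (Or.inr (EReal.coe_ne_top _)) (Or.inr (EReal.coe_ne_bot _))
    fun a ha b hb => ?_
  simp only [value, gt_iff_lt, iInf_lt_iff] at ha
  obtain ⟨q, hq, hlt⟩ := ha
  refine (iInf₂_le q hq).trans ?_
  have := mul_le_mul_of_nonneg_left
    ((le_abs_self _).trans (energy_sub_le hf hg hfB hgB hq.1 hq.2.1 hq.2.2.le)) hα
  calc ((α * energy f q + entropy q : ℝ) : EReal)
      ≤ ((α * energy g q + entropy q + α * (Real.exp (3 * B) * ∫ x, |f x - g x| ∂gm) : ℝ) : EReal) :=
        EReal.coe_le_coe_iff.2 (by linarith [mul_sub α (energy f q) (energy g q)])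
    _ = ((α * energy g q + entropy q : ℝ) : EReal)
        + ((α * (Real.exp (3 * B) * ∫ x, |f x - g x| ∂gm) : ℝ) : EReal) := EReal.coe_add _ _
    _ ≤ a + b := add_le_add hlt.le hb.le

/-- From smooth bounded potentials to bounded Borel potentials on the sphere. -/
theorem limit_borel {α : ℝ} (hα : 0 ≤ α)
    (hP : ∀ P : Casc.Pot, ∃ ℓ : ℝ,
      Tendsto (fun N : ℕ => spr P.f N ⌊α * N⌋₊ / N) atTop (𝓝 ℓ) ∧
      Tendsto (fun K => value K α P.f) atTop (𝓝 (ℓ : EReal)))
    {f : ℝ → ℝ} (hf : Measurable f) {B : ℝ} (hB : ∀ x, |f x| ≤ B) :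
    ∃ ℓ : ℝ, Tendsto (fun N : ℕ => spr f N ⌊α * N⌋₊ / N) atTop (𝓝 ℓ) ∧
      Tendsto (fun K => value K α f) atTop (𝓝 (ℓ : EReal)) := by
  obtain ⟨B', hBB, happ⟩ := Formula.exists_pot hf hB
  have hfB' : ∀ x, |f x| ≤ B' := fun x => (hB x).trans hBB
  have happ' : ∀ ε > (0 : ℝ), ∃ P : Casc.Pot, ∃ ℓ : ℝ,
      Tendsto (fun N : ℕ => spr P.f N ⌊α * N⌋₊ / N) atTop (𝓝 ℓ) ∧
      Tendsto (fun K => value K α P.f) atTop (𝓝 (ℓ : EReal)) ∧
      (∀ N : ℕ, |spr f N ⌊α * N⌋₊ / N - spr P.f N ⌊α * N⌋₊ / N| ≤ ε) ∧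
      (∀ K, value K α f ≤ value K α P.f + (ε : EReal)) ∧
      ∀ K, value K α P.f ≤ value K α f + (ε : EReal) := by
    intro ε hε
    obtain ⟨P, hPB, hPi⟩ := happ (ε / ((α + 1) * Real.exp (3 * B'))) (by positivity)
    have hPm : Measurable P.f :=
      (continuous_iff_continuousAt.2 fun x => (P.d1 x).continuousAt).measurable
    obtain ⟨ℓ, h1, h2⟩ := hP P
    set I := ∫ x, |P.f x - f x| ∂gm with hI
    have hI0 : 0 ≤ I := integral_nonneg fun _ => abs_nonneg _
    have hI' : ∫ x, |f x - P.f x| ∂gm = I := by simp only [hI, abs_sub_comm (f _)]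
    have hB0 : 0 ≤ B' := (abs_nonneg _).trans (hfB' 0)
    rw [le_div_iff₀ (by positivity)] at hPi
    have hsmall : α * (Real.exp (3 * B') * I) ≤ ε := by
      nlinarith [mul_nonneg (Real.exp_pos (3 * B')).le hI0]
    refine ⟨P, ℓ, h1, h2, fun N => ?_, fun K => ?_, fun K => ?_⟩
    · rcases Nat.eq_zero_or_pos N with rfl | hN
      · simp; linarith
      have hN' : (0 : ℝ) < N := by exact_mod_cast hN
      rw [← sub_div, abs_div, abs_of_pos hN', div_le_iff₀ hN']
      refine (spr_sub_le hf hfB' hPm hPB hN _).trans ?_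
      rw [hI']
      calc (⌊α * (N : ℝ)⌋₊ : ℝ) * (Real.exp (2 * B') * I)
          ≤ α * N * (Real.exp (3 * B') * I) :=
            mul_le_mul (Nat.floor_le (by positivity)) (mul_le_mul_of_nonneg_right
              (Real.exp_le_exp.2 (by linarith)) hI0) (by positivity) (by positivity)
        _ ≤ ε * N := by nlinarith
    · refine (value_le_add hα hf hPm hfB' hPB).trans (add_le_add_right ?_ _)
      rw [hI']
      exact EReal.coe_le_coe_iff.2 hsmall
    · refine (value_le_add hα hPm hf hPB hfB').trans (add_le_add_right ?_ _)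
      exact EReal.coe_le_coe_iff.2 hsmall
  have hc : CauchySeq fun N : ℕ => spr f N ⌊α * N⌋₊ / N := by
    refine Metric.cauchySeq_iff'.2 fun ε hε => ?_
    obtain ⟨P, ℓ, h1, -, hN, -, -⟩ := happ' (ε / 4) (by linarith)
    obtain ⟨N0, hN0⟩ := Metric.tendsto_atTop.1 h1 (ε / 8) (by linarith)
    refine ⟨N0, fun n hn => ?_⟩
    have a := hN0 n hn
    have b := hN0 N0 le_rfl
    have c := hN n
    have d := hN N0
    rw [Real.dist_eq, abs_lt] at a b ⊢
    rw [abs_le] at c d
    constructor <;> linarith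
  obtain ⟨L, hL⟩ := cauchySeq_tendsto_of_complete hc
  refine ⟨L, hL, ?_⟩
  have key : ∀ ε > (0 : ℝ), ∀ᶠ K in atTop,
      ((L - ε : ℝ) : EReal) ≤ value K α f ∧ value K α f ≤ ((L + ε : ℝ) : EReal) := by
    intro ε hε
    obtain ⟨P, ℓ, h1, h2, hN, hu, hl⟩ := happ' (ε / 4) (by linarith)
    have hdiff : |L - ℓ| ≤ ε / 4 := le_of_tendsto' (hL.sub h1).abs hN
    rw [abs_le] at hdiff
    filter_upwards [(tendsto_order.1 h2).1 ((ℓ - ε / 4 : ℝ) : EReal)
      (EReal.coe_lt_coe_iff.2 (by linarith)), (tendsto_order.1 h2).2 ((ℓ + ε / 4 : ℝ) : EReal)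
      (EReal.coe_lt_coe_iff.2 (by linarith))] with K hK1 hK2
    constructor
    · refine (EReal.addLECancellable_coe (ε / 4)).add_le_add_iff_right.1
        (le_trans ?_ (hK1.le.trans (hl K)))
      rw [← EReal.coe_add]
      exact EReal.coe_le_coe_iff.2 (by linarith)
    · refine (hu K).trans ((add_le_add hK2.le le_rfl).trans ?_)
      rw [← EReal.coe_add]
      exact EReal.coe_le_coe_iff.2 (by linarith)
  rw [tendsto_order]
  constructor
  · intro a ha
    obtain ⟨r, har, hr⟩ := EReal.exists_between_coe_real ha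
    filter_upwards [key (L - r) (by have := EReal.coe_lt_coe_iff.1 hr; linarith)] with K hK
    rw [sub_sub_cancel] at hK
    exact har.trans_le hK.1
  · intro a ha
    obtain ⟨r, hr, hra⟩ := EReal.exists_between_coe_real ha
    filter_upwards [key (r - L) (by have := EReal.coe_lt_coe_iff.1 hr; linarith)] with K hK
    rw [add_sub_cancel] at hK
    exact hK.2.trans_lt hra

end Vale.Agent.P157.Sphere
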