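import Vale.Agent.P157.Sphere.Shell

/-!
P157, sphere: the limit and its formula from bounds on the penalised pressures of smooth potentials,
above by every path and below, for large penalties, by the value at every large number of levels.
-/

open MeasureTheory ProbabilityTheory Filter Topology Real

namespace Vale.Agent.P157.Sphere

/-- Upper and lower bounds on the penalised pressure at large penalties. -/
def PenBounds (f : ℝ → ℝ) (α : ℝ) : Prop :=
  ∃ Bc : ℝ, 1 < Bc ∧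
    (∀ (K : ℕ) (q : Fin (K + 1) → ℝ), Monotone q → 0 ≤ q 0 → q (Fin.last K) < 1 → ∀ η > (0 : ℝ),
      ∃ lam0 : ℝ, ∀ lam ≥ lam0, ∀ᶠ N : ℕ in atTop,
        pen f lam Bc N ⌊α * N⌋₊ / N ≤ α * energy f q + entropy q + η) ∧
    ∀ η > (0 : ℝ), ∃ lam0 : ℝ, ∀ lam ≥ lam0, ∃ K0 : ℕ, ∀ K ≥ K0, ∀ᶠ N : ℕ in atTop,
      value K α f ≤ ((pen f lam Bc N ⌊α * N⌋₊ / N + η : ℝ) : EReal)

theorem value_le {K : ℕ} (α : ℝ) (f : ℝ → ℝ) {q : Fin (K + 1) → ℝ} (hm : Monotone q) (h0 : 0 ≤ q 0)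
    (h1 : q (Fin.last K) < 1) : value K α f ≤ ((α * energy f q + entropy q : ℝ) : EReal) :=
  iInf₂_le_of_le q ⟨hm, h0, h1⟩ le_rfl

/-- The penalised pressure is bounded below. -/
theorem pen_ge {f : ℝ → ℝ} (hf : Measurable f) {B : ℝ} (hB : ∀ x, |f x| ≤ B) {α : ℝ} (hα : 0 ≤ α)
    {Bc lam : ℝ} (hBc : 1 < Bc) (hlam : 0 ≤ lam) :
    ∀ᶠ N : ℕ in atTop, -(α * B) - 1 ≤ pen f lam Bc N ⌊α * N⌋₊ / N := by
  have hs : Tendsto (fun N : ℕ => 4 / √(N : ℝ)) atTop (𝓝 0) :=
    (Real.tendsto_sqrt_atTop.comp tendsto_natCast_atTop_atTop).const_div_atTop 4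
  have hc : Tendsto (fun N : ℕ => (16 * lam + Real.log 2) / (N : ℝ)) atTop (𝓝 0) :=
    tendsto_natCast_atTop_atTop.const_div_atTop _
  filter_upwards [eventually_gt_atTop 0, hs.eventually_le_const (sub_pos.2 hBc),
    hc.eventually_le_const one_pos] with N hN hb hcN
  have hN' : (0 : ℝ) < N := by exact_mod_cast hN
  have hp := (pen_bounds hf hB hN hlam (δ := 4 / √(N : ℝ)) (by positivity)
    (by linarith : 1 + 4 / √(N : ℝ) ≤ Bc) le_rfl ⌊α * N⌋₊).1
  have hn := cond_isProbabilityMeasure (near_ne hN (le_refl (4 / √(N : ℝ))))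
  have hF := (abs_le.1 (abs_F_le hf hB ((gs N)[|near N (4 / √(N : ℝ))]) measurable_scl ⌊α * N⌋₊)).1
  have hM := mul_le_mul_of_nonneg_right (Nat.floor_le (show 0 ≤ α * (N : ℝ) by positivity))
    ((abs_nonneg _).trans (hB 0))
  rw [div_le_iff₀ hN'] at hcN
  rw [le_div_iff₀ hN']
  linarith

/-- Smooth potentials with these bounds have a limit given by the formula. -/
theorem limit_of_penBounds {α : ℝ} (hα : 0 ≤ α) (P : Casc.Pot) (h : PenBounds P.f α) :
    ∃ ℓ : ℝ, Tendsto (fun N : ℕ => spr P.f N ⌊α * N⌋₊ / N) atTop (𝓝 ℓ) ∧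
      Tendsto (fun K => value K α P.f) atTop (𝓝 (ℓ : EReal)) := by
  obtain ⟨Bc, hBc, hup, hlow⟩ := h
  have hfc : Continuous P.f := continuous_iff_continuousAt.2 fun x => (P.d1 x).continuousAt
  have hb1 : 0 ≤ P.b1 := (abs_nonneg _).trans (P.h1 0)
  have hL : ∀ x y, |P.f x - P.f y| ≤ P.b1 * |x - y| := fun x y => by
    have := Convex.norm_image_sub_le_of_norm_hasDerivWithin_le (f := P.f) (f' := P.f1) (s := Set.univ)
      (C := P.b1) (fun z _ => (P.d1 z).hasDerivWithinAt) (fun z _ => P.h1 z) convex_univ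
      (Set.mem_univ y) (Set.mem_univ x)
    simpa [Real.norm_eq_abs] using this
  -- the values are finite and bounded below
  have hlb : ∀ K : ℕ, ((-(α * P.bF) - 2 : ℝ) : EReal) ≤ value K α P.f := fun K =>
    le_iInf₂ fun q hq => by
      obtain ⟨l3, hl3⟩ := hup K q hq.1 hq.2.1 hq.2.2 1 one_pos
      obtain ⟨N, h1, h2⟩ := ((hl3 _ (le_max_left l3 0)).and
        (pen_ge hfc.measurable P.hF hα hBc (le_max_right l3 0))).exists
      exact EReal.coe_le_coe_iff.2 (by linarith)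
  set r : ℕ → ℝ := fun K => (value K α P.f).toReal
  have hr : ∀ K, value K α P.f = (r K : EReal) := fun K => by
    refine (EReal.coe_toReal ?_ ((EReal.bot_lt_coe _).trans_le (hlb K)).ne').symm
    exact ((value_le α P.f (q := fun _ : Fin (K + 1) => (0 : ℝ)) monotone_const le_rfl
      one_pos).trans_lt (EReal.coe_lt_top _)).ne
  have hbb : BddBelow (Set.range r) := ⟨-(α * P.bF) - 2, by
    rintro _ ⟨K, rfl⟩
    have := hlb K
    rwa [hr, EReal.coe_le_coe_iff] at this⟩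
  set ℓ := ⨅ K, r K
  -- the penalised pressure is near the infimum, and so are the values of many levels
  have two : ∀ η > (0 : ℝ),
      (∃ lam0 : ℝ, ∀ lam ≥ lam0, ∀ᶠ N : ℕ in atTop, |pen P.f lam Bc N ⌊α * N⌋₊ / N - ℓ| ≤ 3 * η) ∧
      ∀ᶠ K in atTop, r K ≤ ℓ + 4 * η := by
    intro η hη
    obtain ⟨K1, hK1⟩ := exists_lt_of_ciInf_lt (show ℓ < ℓ + η by linarith)
    have hlt : value K1 α P.f < ((r K1 + η : ℝ) : EReal) := by
      rw [hr]; exact EReal.coe_lt_coe_iff.2 (by linarith)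
    simp only [value, iInf_lt_iff] at hlt
    obtain ⟨q, ⟨hm, h0, h1⟩, hq⟩ := hlt
    obtain ⟨l1, hl1⟩ := hup K1 q hm h0 h1 η hη
    obtain ⟨l2, hl2⟩ := hlow η hη
    have hq' := EReal.coe_lt_coe_iff.1 hq
    have both : ∀ lam ≥ max l1 l2, ∃ K0, ∀ K ≥ K0, ∀ᶠ N : ℕ in atTop,
        pen P.f lam Bc N ⌊α * N⌋₊ / N ≤ ℓ + 3 * η ∧ r K ≤ pen P.f lam Bc N ⌊α * N⌋₊ / N + η := by
      intro lam hlam
      obtain ⟨K0, hK0⟩ := hl2 lam (le_of_max_le_right hlam)
      refine ⟨K0, fun K hK => ?_⟩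
      filter_upwards [hl1 lam (le_of_max_le_left hlam), hK0 K hK] with N a b
      rw [hr, EReal.coe_le_coe_iff] at b
      exact ⟨by linarith, b⟩
    refine ⟨⟨max l1 l2, fun lam hlam => ?_⟩, ?_⟩
    · obtain ⟨K0, hK0⟩ := both lam hlam
      filter_upwards [hK0 K0 le_rfl] with N hN
      have := ciInf_le hbb K0
      exact abs_le.2 ⟨by linarith [hN.2], by linarith [hN.1]⟩
    · obtain ⟨K0, hK0⟩ := both _ le_rfl
      filter_upwards [eventually_ge_atTop K0] with K hK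
      obtain ⟨N, a, b⟩ := (hK0 K hK).exists
      linarith
  refine ⟨ℓ, tendsto_spr_of_pen hfc.measurable P.hF hL hb1 hα hBc fun e he => ?_, ?_⟩
  · obtain ⟨lam0, hlam⟩ := (two (e / 3) (by linarith)).1
    exact ⟨lam0, fun lam hl => (hlam lam hl).mono fun N hN => hN.trans (by linarith)⟩
  · refine tendsto_order.2 ⟨fun a ha => Eventually.of_forall fun K => ha.trans_le ?_, fun a ha => ?_⟩
    · rw [hr]; exact EReal.coe_le_coe_iff.2 (ciInf_le hbb K)
    · obtain ⟨x, hx, hxa⟩ := EReal.exists_between_coe_real ha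
      have hd : 0 < (x - ℓ) / 5 := by have := EReal.coe_lt_coe_iff.1 hx; linarith
      filter_upwards [(two _ hd).2] with K hK
      refine lt_trans ?_ hxa
      rw [hr]
      exact EReal.coe_lt_coe_iff.2 (by linarith)

/-- The limit and its formula for every bounded Borel potential. -/
theorem sphere_limit_of_engine {α : ℝ} (hα : 0 ≤ α) (h : ∀ P : Casc.Pot, PenBounds P.f α)
    {f : ℝ → ℝ} (hf : Measurable f) {B : ℝ} (hB : ∀ x, |f x| ≤ B) :
    ∃ ℓ : ℝ, Tendsto (fun N : ℕ => spr f N ⌊α * N⌋₊ / N) atTop (𝓝 ℓ) ∧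
      Tendsto (fun K => value K α f) atTop (𝓝 (ℓ : EReal)) :=
  limit_borel hα (fun P => limit_of_penBounds hα P (h P)) hf hB

end Vale.Agent.P157.Sphere
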