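import Vale.Agent.P157.Sphere.Formula
import Vale.Agent.P166.Formula.GaussPsi

/-!
P157, sphere: the scalar entropy is the log-determinant entropy of a one-component path.
-/

open Real Finset

namespace Vale.Agent.P157.Sphere

open P166.Formula (gridM gridM_levels tT tT_top tT_step ent levelSum)

/-- A scalar path as a sequence of one-by-one matrices. -/
noncomputable def matPath {K : ℕ} (q : Fin (K + 1) → ℝ) (l : ℕ) : Matrix (Fin 1) (Fin 1) ℝ :=
  Matrix.diagonal fun _ => q ⟨min l K, by omega⟩

theorem tailT_top {K : ℕ} (q : Fin (K + 1) → ℝ) : tailT q (Fin.last K) = 1 - q (Fin.last K) := by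
  simp only [tailT, add_eq_left]
  refine Finset.sum_eq_zero fun j _ => if_neg ?_
  simp [Fin.last_le_iff, Fin.ext_iff, j.isLt.ne]

theorem tailT_step {K : ℕ} (q : Fin (K + 1) → ℝ) (l : Fin K) :
    tailT q l.castSucc
      = tailT q l.succ + ((l : ℕ) + 1) / ((K : ℝ) + 1) * (q l.succ - q l.castSucc) := by
  simp only [tailT, add_assoc, add_right_inj]
  rw [← Finset.sum_ite_eq' univ l
    (fun j : Fin K => ((j : ℕ) + 1) / ((K : ℝ) + 1) * (q j.succ - q j.castSucc)) |>.trans
      (if_pos (mem_univ l)), ← Finset.sum_add_distrib]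
  refine Finset.sum_congr rfl fun j _ => ?_
  rcases lt_trichotomy (j : ℕ) l with h | h | h
  · rw [if_neg (by rw [Fin.le_def]; simp only [Fin.val_castSucc]; omega),
      if_neg (by rw [Fin.le_def]; simp only [Fin.val_castSucc, Fin.val_succ]; omega),
      if_neg (by rw [Fin.ext_iff]; omega), add_zero]
  · obtain rfl : j = l := Fin.ext h
    rw [if_pos le_rfl, if_neg (by rw [Fin.le_def]; simp only [Fin.val_castSucc, Fin.val_succ]; omega),
      if_pos rfl, zero_add]
  · rw [if_pos (by rw [Fin.le_def]; simp only [Fin.val_castSucc]; omega),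
      if_pos (by rw [Fin.le_def]; simp only [Fin.val_castSucc, Fin.val_succ]; omega),
      if_neg (by rw [Fin.ext_iff]; omega), add_zero]

theorem tT_matPath {K : ℕ} (q : Fin (K + 1) → ℝ) (l : Fin (K + 1)) :
    tT (gridM K) K 1 (matPath q) l = Matrix.diagonal fun _ => tailT q l := by
  induction l using Fin.reverseInduction with
  | last =>
    rw [Fin.val_last, tT_top (gridM_levels K), tailT_top]
    ext i j
    fin_cases i; fin_cases j
    simp [matPath, Fin.last]
  | cast l ih =>
    rw [Fin.val_castSucc, tT_step _ _ l.isLt, ← Fin.val_succ l, ih, tailT_step]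
    ext i j
    fin_cases i; fin_cases j
    have e1 : (⟨min ((l : ℕ) + 1) K, by omega⟩ : Fin (K + 1)) = l.succ :=
      Fin.ext (Nat.min_eq_left l.isLt)
    have e2 : (⟨min (l : ℕ) K, by omega⟩ : Fin (K + 1)) = l.castSucc :=
      Fin.ext (Nat.min_eq_left l.isLt.le)
    simp only [matPath, gridM, Matrix.smul_apply, Matrix.add_apply, Matrix.sub_apply,
      Matrix.diagonal_apply_eq, smul_eq_mul, Fin.val_succ, e1, e2]
    push_cast
    ring

/-- The entropy of the formula is the log-determinant entropy at unit self-overlap. -/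
theorem entropy_eq_ent {K : ℕ} (q : Fin (K + 1) → ℝ) :
    entropy q = ent (gridM K) K 1 (1 : Matrix (Fin 1) (Fin 1) ℝ) (matPath q) := by
  have h0 := tT_matPath q 0
  have hK := tT_matPath q (Fin.last K)
  rw [Fin.val_zero] at h0
  rw [Fin.val_last] at hK
  have hs : (∑ l ∈ range K, (gridM K (l + 1))⁻¹ *
        (log (tT (gridM K) K 1 (matPath q) (l + 1)).det - log (tT (gridM K) K 1 (matPath q) l).det))
      = -∑ l : Fin K, ((K : ℝ) + 1) / ((l : ℕ) + 1)
          * (log (tailT q l.castSucc) - log (tailT q l.succ)) := by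
    rw [Finset.sum_range, ← Finset.sum_neg_distrib]
    refine Finset.sum_congr rfl fun l _ => ?_
    rw [← Fin.val_succ l, ← Fin.val_castSucc l, tT_matPath, tT_matPath]
    simp only [Matrix.det_diagonal, Finset.univ_unique, Finset.prod_singleton, gridM, Fin.val_succ,
      Fin.val_castSucc, inv_div, Nat.cast_add, Nat.cast_one]
    ring
  rw [entropy, ent, levelSum, hs, hK, h0]
  have hi : (Matrix.diagonal fun _ : Fin 1 => tailT q 0)⁻¹ = Matrix.diagonal fun _ => (tailT q 0)⁻¹ := by
    ext i j
    fin_cases i; fin_cases j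
    simp [Matrix.inv_def, Matrix.adjugate_fin_one]
  rw [hi]
  simp [matPath, Matrix.trace, Fin.zero_eta]
  ring

end Vale.Agent.P157.Sphere
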