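import Vale.Agent.P157.Ising.Defs

/-!
P157, sphere: the variational formula with one-dimensional Gaussian recursions and an explicit
entropy.
-/

open MeasureTheory ProbabilityTheory

namespace Vale.Agent.P157.Sphere

/-- The recursion along an overlap path completed by a last step up to `1` with parameter `1`. -/
noncomputable def energy {K : ℕ} (f : ℝ → ℝ) (q : Fin (K + 1) → ℝ) : ℝ :=
  ∫ z, Ising.grec (K + 1) (fun l => ((l : ℕ) + 1) / ((K : ℝ) + 1))
    (fun l => (Fin.snoc q 1 : Fin (K + 2) → ℝ) l.succ - (Fin.snoc q 1 : Fin (K + 2) → ℝ) l.castSucc)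
    f (√(q 0) * z) ∂gaussianReal 0 1

/-- The tail of an overlap path seen from a level. -/
noncomputable def tailT {K : ℕ} (q : Fin (K + 1) → ℝ) (l : Fin (K + 1)) : ℝ :=
  1 - q (Fin.last K) + ∑ j : Fin K, if l ≤ j.castSucc then
    ((j : ℕ) + 1) / ((K : ℝ) + 1) * (q j.succ - q j.castSucc) else 0

/-- The entropy of an overlap path on the sphere. -/
noncomputable def entropy {K : ℕ} (q : Fin (K + 1) → ℝ) : ℝ :=
  1 / 2 * (Real.log (tailT q (Fin.last K)) + q 0 / tailT q 0
    + ∑ l : Fin K, ((K : ℝ) + 1) / ((l : ℕ) + 1)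
        * (Real.log (tailT q l.castSucc) - Real.log (tailT q l.succ)))

/-- The value at `K + 1` levels: infimum over nondecreasing overlap paths from `[0, 1)`. -/
noncomputable def value (K : ℕ) (α : ℝ) (f : ℝ → ℝ) : EReal :=
  ⨅ q ∈ {q : Fin (K + 1) → ℝ | Monotone q ∧ 0 ≤ q 0 ∧ q (Fin.last K) < 1},
    ((α * energy f q + entropy q : ℝ) : EReal)

end Vale.Agent.P157.Sphere
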