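import Vale.Agent.P157.Sphere.Formula

/-!
P157, sphere: doubling the number of levels does not increase the value, so a limit of the values is
their infimum over all numbers of levels.
-/

open MeasureTheory ProbabilityTheory Filter Topology Finset

namespace Vale.Agent.P157.Sphere

theorem gstep_zero {m : ℝ} (hm : m ≠ 0) (F : ℝ → ℝ) : Ising.gstep m 0 F = F := by
  funext x
  simp [Ising.gstep, Real.log_exp, inv_mul_cancel_left₀ hm]

/-- Steps of variance zero may be inserted before every step. -/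
theorem grec_double : ∀ (K : ℕ) (m d m' d' : ℕ → ℝ) (F : ℝ → ℝ),
    (∀ l < K, m' (2 * l) ≠ 0 ∧ d' (2 * l) = 0 ∧ m' (2 * l + 1) = m l ∧ d' (2 * l + 1) = d l) →
      Ising.grec (2 * K) (fun i => m' i) (fun i => d' i) F
        = Ising.grec K (fun i => m i) (fun i => d i) F
  | 0, _, _, _, _, _, _ => rfl
  | K + 1, m, d, m', d', F, h => by
    obtain ⟨a, b, c, e⟩ := h 0 K.succ_pos
    have ih := grec_double K (fun l => m (l + 1)) (fun l => d (l + 1)) (fun l => m' (l + 2))
      (fun l => d' (l + 2)) F fun l hl => h (l + 1) (by omega)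
    show Ising.gstep (m' 0) (d' 0) (Ising.gstep (m' 1) (d' 1) (Ising.grec (2 * K)
      (fun i => m' (i + 2)) (fun i => d' (i + 2)) F)) = Ising.gstep (m 0) (d 0) _
    rw [b, gstep_zero a, c, e, ih]
    rfl

/-- A path read on the natural numbers, completed by `1`. -/
noncomputable def pathN {K : ℕ} (q : Fin (K + 1) → ℝ) (i : ℕ) : ℝ :=
  if h : i < K + 1 then q ⟨i, h⟩ else 1

theorem snoc_eq_pathN {K : ℕ} (q : Fin (K + 1) → ℝ) (l : Fin (K + 2)) :
    (Fin.snoc q 1 : Fin (K + 2) → ℝ) l = pathN q l := by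
  induction l using Fin.lastCases with
  | last => simp [pathN]
  | cast l => simp [pathN, l.isLt]

theorem pathN_val {K : ℕ} (q : Fin (K + 1) → ℝ) (i : Fin (K + 1)) : pathN q i = q i := by
  simp [pathN, i.isLt]

/-- The path with every entry repeated. -/
noncomputable def dblPath {K : ℕ} (q : Fin (K + 1) → ℝ) (i : Fin (2 * K + 1 + 1)) : ℝ :=
  q ⟨(i : ℕ) / 2, by omega⟩

theorem pathN_dbl {K : ℕ} (q : Fin (K + 1) → ℝ) (i : ℕ) :
    pathN (dblPath q) i = pathN q (i / 2) := by
  unfold pathN dblPath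
  split_ifs <;> first | rfl | omega

theorem energy_dbl {K : ℕ} (f : ℝ → ℝ) (q : Fin (K + 1) → ℝ) :
    energy f (dblPath q) = energy f q := by
  have e := grec_double (K + 1) (fun l => ((l : ℕ) + 1 : ℝ) / ((K : ℝ) + 1))
    (fun l => pathN q (l + 1) - pathN q l)
    (fun l => ((l : ℕ) + 1 : ℝ) / (((2 * K + 1 : ℕ) : ℝ) + 1))
    (fun l => pathN (dblPath q) (l + 1) - pathN (dblPath q) l) f fun l _ => by
      refine ⟨by positivity, ?_, ?_, ?_⟩
      · rw [pathN_dbl, pathN_dbl, show (2 * l + 1) / 2 = 2 * l / 2 by omega, sub_self]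
      · push_cast
        field_simp
        ring
      · rw [pathN_dbl, pathN_dbl, show (2 * l + 1 + 1) / 2 = l + 1 by omega,
          show (2 * l + 1) / 2 = l by omega]
  simp only [energy, snoc_eq_pathN, Fin.val_succ, Fin.val_castSucc]
  rw [show dblPath q 0 = q 0 by simp [dblPath]]
  exact congrArg (fun G : ℝ → ℝ => ∫ z, G (√(q 0) * z) ∂gaussianReal 0 1) e

theorem sum_odd {g : ℕ → ℝ} : ∀ {K : ℕ}, (∀ l ≤ K, g (2 * l) = 0) →
    ∑ i ∈ range (2 * K + 1), g i = ∑ l ∈ range K, g (2 * l + 1)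
  | 0, h => by simpa using h 0 le_rfl
  | K + 1, h => by
    rw [show 2 * (K + 1) + 1 = 2 * K + 1 + 1 + 1 by omega, sum_range_succ, sum_range_succ,
      sum_range_succ _ K, sum_odd fun l hl => h l (by omega),
      show 2 * K + 1 + 1 = 2 * (K + 1) by omega, h (K + 1) le_rfl, add_zero]

/-- The tail read on the natural numbers. -/
noncomputable def tailN {K : ℕ} (q : Fin (K + 1) → ℝ) (i : ℕ) : ℝ :=
  1 - pathN q K + ∑ j ∈ range K,
    if i ≤ j then ((j : ℕ) + 1 : ℝ) / ((K : ℝ) + 1) * (pathN q (j + 1) - pathN q j) else 0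

theorem tailT_eq {K : ℕ} (q : Fin (K + 1) → ℝ) (l : Fin (K + 1)) : tailT q l = tailN q l := by
  rw [tailT, tailN, ← Fin.sum_univ_eq_sum_range]
  simp [Fin.le_def, ← pathN_val]

theorem tailN_dbl {K : ℕ} (q : Fin (K + 1) → ℝ) (i : ℕ) :
    tailN (dblPath q) i = tailN q (i / 2) := by
  rw [tailN, tailN, sum_odd, pathN_dbl, show (2 * K + 1) / 2 = K by omega]
  · refine congrArg _ (sum_congr rfl fun l _ => ?_)
    have hc : i ≤ 2 * l + 1 ↔ i / 2 ≤ l := by omega
    simp only [hc, pathN_dbl, show (2 * l + 1 + 1) / 2 = l + 1 by omega,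
      show (2 * l + 1) / 2 = l by omega]
    split_ifs
    · push_cast
      field_simp
      ring
    · rfl
  · intro l _
    simp [pathN_dbl, show (2 * l + 1) / 2 = 2 * l / 2 by omega]

theorem entropy_eq {K : ℕ} (q : Fin (K + 1) → ℝ) :
    entropy q = 1 / 2 * (Real.log (tailN q K) + pathN q 0 / tailN q 0
      + ∑ l ∈ range K, ((K : ℝ) + 1) / ((l : ℕ) + 1)
          * (Real.log (tailN q l) - Real.log (tailN q (l + 1)))) := by
  rw [entropy, ← Fin.sum_univ_eq_sum_range]
  simp [tailT_eq, ← pathN_val q 0]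

theorem entropy_dbl {K : ℕ} (q : Fin (K + 1) → ℝ) : entropy (dblPath q) = entropy q := by
  rw [entropy_eq, entropy_eq, sum_odd]
  · simp only [tailN_dbl, pathN_dbl, Nat.zero_div, show (2 * K + 1) / 2 = K by omega]
    congr 2
    refine sum_congr rfl fun l _ => ?_
    rw [show (2 * l + 1) / 2 = l by omega, show (2 * l + 1 + 1) / 2 = l + 1 by omega]
    push_cast
    field_simp
    ring
  · intro l _
    simp [tailN_dbl, show (2 * l + 1) / 2 = 2 * l / 2 by omega]

theorem value_double_le (K : ℕ) (α : ℝ) (f : ℝ → ℝ) : value (2 * K + 1) α f ≤ value K α f :=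
  le_iInf₂ fun q hq => iInf₂_le_of_le (dblPath q)
    ⟨fun i j h => hq.1 (Fin.mk_le_mk.2 (Nat.div_le_div_right h)), by simpa [dblPath] using hq.2.1,
      by simpa [dblPath, Fin.last, show (2 * K + 1) / 2 = K by omega] using hq.2.2⟩
    (by rw [energy_dbl, entropy_dbl])

/-- A limit of the values is their infimum over all numbers of levels. -/
theorem iInf_value_eq {α : ℝ} {f : ℝ → ℝ} {ℓ : EReal}
    (h : Tendsto (fun K => value K α f) atTop (𝓝 ℓ)) : ⨅ K, value K α f = ℓ := by
  refine le_antisymm (ge_of_tendsto' h fun K => iInf_le _ K) (le_iInf fun K => ?_)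
  set g : ℕ → ℕ := fun k => 2 * k + 1
  have h1 : ∀ n, n ≤ g^[n] K ∧ value (g^[n] K) α f ≤ value K α f := by
    intro n
    induction n with
    | zero => simp
    | succ n ih =>
      rw [Function.iterate_succ_apply']
      exact ⟨show n + 1 ≤ 2 * g^[n] K + 1 by omega, (value_double_le _ α f).trans ih.2⟩
  exact le_of_tendsto' (h.comp (tendsto_atTop_mono (fun n => (h1 n).1) tendsto_id)) fun n => (h1 n).2

end Vale.Agent.P157.Sphere
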