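import Vale.Agent.P157.Sphere.PenFromPaths
import Vale.Agent.P166.Casc.VUpperRows
import Vale.Agent.P166.Casc.VLower

/-!
P157, sphere: the limit of the pressure and its formula from the two bounds by paths.
-/

open MeasureTheory ProbabilityTheory Filter Topology

namespace Vale.Agent.P157.Sphere

open Vale.Agent.P166
open P166.Formula (Adm pathVal gVal)

theorem vpot_h_symm (P : Casc.Pot) : ∀ k k' y, (vpot P).h k k' y = (vpot P).h k' k y :=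
  fun _ _ _ => rfl

theorem cut_pos_of_trace {B : ℝ} (hB : ((∑ t, ∑ k, ctr (t, k, k)) + (1 : ℕ)) / 1 + 2 * (1 : ℕ) ≤ B) :
    0 < B := by
  have h0 : 0 ≤ ∑ t, ∑ k, ctr (t, k, k) := Finset.sum_nonneg fun t _ => Finset.sum_nonneg fun k _ => by
    unfold ctr; split_ifs <;> norm_num
  have : (0 : ℝ) < ((∑ t, ∑ k, ctr (t, k, k)) + (1 : ℕ)) / 1 + 2 * (1 : ℕ) := by positivity
  linarith

/-- The bound from above at any cut wide enough. -/
theorem upper_paths {α : ℝ} (hα : 0 ≤ α) (P : Casc.Pot) (B : ℝ)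
    (hB : ((∑ t, ∑ k, ctr (t, k, k)) + (1 : ℕ)) / 1 + 2 * (1 : ℕ) ≤ B)
    (hS : ∀ᶠ N : ℕ in atTop, 0 < (Pen.spinLaw 1 N).real (Pen.cutSet B 1 N)) {η : ℝ} (hη : 0 < η) :
    ∃ lam0 : ℝ, ∀ lam ≥ lam0, ∀ᶠ N : ℕ in atTop,
      P166.Casc.rowsFree 1 (vpot P).f one1 B lam ctr ⌊α * N⌋₊ N
        ≤ (gVal 1 (vpot P).f one1 α ctr + η) * N := by
  exact P166.Casc.line_upper_rows one_pos (cut_pos_of_trace hB) one_pos (vpot P) (vpot_h_symm P) one1_pos one_pos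
    goodCentre_ctr hB hS hα hη

/-- The lower bound by paths at one cut and all large penalties. -/
def LowerPaths (P : Casc.Pot) (α B : ℝ) : Prop :=
  ∀ η > (0 : ℝ), ∃ lam0 : ℝ, 0 ≤ lam0 ∧ ∀ lam ≥ lam0, ∃ K0 : ℕ, ∀ K ≥ K0, ∀ G : ℝ,
    (∀ q, Adm one1 ctr K q → G ≤ pathVal 1 (vpot P).f one1 α ctr K q) →
    ∃ κ' > (0 : ℝ), ∀ᶠ N : ℕ in atTop, ∀ M : ℕ, |(M : ℝ) - α * N| ≤ κ' * N →
      (G - η) * N ≤ P166.Casc.rowsFree 1 (vpot P).f one1 B lam ctr M N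

/-- The limit and its formula, from the lower bound by paths. -/
theorem limit_formula_of_lower {α : ℝ} (hα : 0 ≤ α)
    (low : ∀ (P : Casc.Pot) (B : ℝ), ((∑ t, ∑ k, ctr (t, k, k)) + (1 : ℕ)) / 1 + 2 * (1 : ℕ) ≤ B →
      (∀ᶠ N : ℕ in atTop, 0 < (Pen.spinLaw 1 N).real (Pen.cutSet B 1 N)) → LowerPaths P α B)
    {f : ℝ → ℝ} (hf : Measurable f) {B : ℝ} (hB : ∀ x, |f x| ≤ B) :
    ∃ ℓ : ℝ, Tendsto (fun N : ℕ => spr f N ⌊α * N⌋₊ / N) atTop (𝓝 ℓ) ∧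
      Tendsto (fun K => value K α f) atTop (𝓝 (ℓ : EReal)) :=
  sphere_limit_of_engine hα (fun P => penBounds_of_paths hα P
    (fun B h1 h2 _ hη => upper_paths hα P B h1 h2 hη) (low P)) hf hB

/-- The limit of the pressure on the sphere and its formula, for every bounded Borel potential. -/
theorem limit_formula {α : ℝ} (hα : 0 ≤ α) {f : ℝ → ℝ} (hf : Measurable f) {B : ℝ}
    (hB : ∀ x, |f x| ≤ B) :
    ∃ ℓ : ℝ, Tendsto (fun N : ℕ => spr f N ⌊α * N⌋₊ / N) atTop (𝓝 ℓ) ∧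
      Tendsto (fun K => value K α f) atTop (𝓝 (ℓ : EReal)) :=
  limit_formula_of_lower hα (fun P B hB _ η hη =>
    P166.Casc.pen_lower one_pos one1_pos one_pos (vpot P) (vpot_h_symm P) one_pos goodCentre_ctr hα
      (cut_pos_of_trace hB) hB η hη) hf hB

end Vale.Agent.P157.Sphere
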