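import Vale.Agent.P157.Sphere.Abstract

/-!
Comparison of one pattern on a system with one pattern on each of two parts, for an arbitrary
probability measure on the configurations.
-/

open MeasureTheory ProbabilityTheory Filter Topology

namespace Vale.Agent.P157.Sphere

variable {S : Type*} [MeasurableSpace S] {n : ℕ}

/-- Average of the cosine transforms. -/
noncomputable def avgM (ρ : Measure ℝ) (ν : Measure S) (w : S → Fin n → ℝ) (g : Fin n → ℝ) : ℝ :=
  ∫ s, cosT ρ (dot g (w s)) ∂ν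

variable (ρ : Measure ℝ) [IsFiniteMeasure ρ] (ν : Measure S) [IsProbabilityMeasure ν]

theorem measurable_avgM {w : S → Fin n → ℝ} (hw : Measurable w) : Measurable (avgM ρ ν w) := by
  have hC := (continuous_cosT ρ).measurable
  have h : Measurable fun p : (Fin n → ℝ) × S => cosT ρ (dot p.1 (w p.2)) := by unfold dot; fun_prop
  exact h.stronglyMeasurable.integral_prod_right'.measurable

theorem abs_avgM_le (w : S → Fin n → ℝ) (g : Fin n → ℝ) : |avgM ρ ν w g| ≤ ρ.real Set.univ := by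
  have := norm_integral_le_of_norm_le_const (μ := ν) (C := ρ.real Set.univ)
    (f := fun s => cosT ρ (dot g (w s))) (ae_of_all _ fun s => by
      rw [Real.norm_eq_abs]; exact abs_cosT_le ρ _)
  simpa [avgM, Real.norm_eq_abs] using this

/-- Gaussian moments of the average. -/
theorem moment_eq {w : S → Fin n → ℝ} (hw : Measurable w) (m : ℕ) :
    ∫ g, avgM ρ ν w g ^ m ∂gs n = ∫ s, (∫ t, Real.exp (-(∑ i, (∑ l, t l * w (s l) i) ^ 2) / 2)
      ∂Measure.pi (fun _ : Fin m => symM ρ)) ∂Measure.pi (fun _ : Fin m => ν) := by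
  have hC := (continuous_cosT ρ).measurable
  have h1 : ∀ g, avgM ρ ν w g ^ m = ∫ s, ∏ l, cosT ρ (∑ i, g i * w (s l) i)
      ∂Measure.pi (fun _ : Fin m => ν) := fun g => by
    rw [integral_fintype_prod_eq_prod (f := fun _ (x : S) => cosT ρ (∑ i, g i * w x i))]
    simp [avgM, dot]
  simp only [h1]
  rw [integral_integral_swap]
  · exact integral_congr_ae (ae_of_all _ fun s => expect_prod ρ fun l => w (s l))
  · refine Integrable.of_bound (Measurable.aestronglyMeasurable ?_) (ρ.real Set.univ ^ m)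
      (ae_of_all _ fun p => ?_)
    · unfold Function.uncurry; fun_prop
    · rw [Real.norm_eq_abs, Function.uncurry, Finset.abs_prod]
      refine (Finset.prod_le_prod (fun l _ => abs_nonneg _) fun l _ => abs_cosT_le ρ _).trans_eq ?_
      simp

variable {c₁ c₂ : ℝ} {w w₁ w₂ : S → Fin n → ℝ}

/-- Moments of the average are convex in the covariance. -/
theorem moment_le (hwm : Measurable w) (hw₁ : Measurable w₁) (hw₂ : Measurable w₂)
    (h1 : 0 ≤ c₁) (h2 : 0 ≤ c₂) (hc : c₁ + c₂ = 1)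
    (hw : ∀ (m : ℕ) (t : Fin m → ℝ) (s : Fin m → S),
      ∑ i, (∑ l, t l * w (s l) i) ^ 2
        = c₁ * ∑ i, (∑ l, t l * w₁ (s l) i) ^ 2 + c₂ * ∑ i, (∑ l, t l * w₂ (s l) i) ^ 2)
    (m : ℕ) :
    ∫ g, avgM ρ ν w g ^ m ∂gs n
      ≤ c₁ * ∫ g, avgM ρ ν w₁ g ^ m ∂gs n + c₂ * ∫ g, avgM ρ ν w₂ g ^ m ∂gs n := by
  set T := Measure.pi fun _ : Fin m => symM ρ
  set P := Measure.pi fun _ : Fin m => ν
  have hle : ∀ (v : S → Fin n → ℝ) (q : (Fin m → S) × (Fin m → ℝ)),
      Real.exp (-(∑ i, (∑ l, q.2 l * v (q.1 l) i) ^ 2) / 2) ≤ 1 := fun v q => by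
    rw [Real.exp_le_one_iff]
    have := Finset.sum_nonneg (s := (Finset.univ : Finset (Fin n)))
      (fun i _ => sq_nonneg (∑ l, q.2 l * v (q.1 l) i))
    linarith
  have hi : ∀ v : S → Fin n → ℝ, Measurable v → Integrable (fun q : (Fin m → S) × (Fin m → ℝ) =>
      Real.exp (-(∑ i, (∑ l, q.2 l * v (q.1 l) i) ^ 2) / 2)) (P.prod T) := fun v hv =>
    Integrable.of_bound (Measurable.aestronglyMeasurable (by fun_prop)) 1 (ae_of_all _ fun q => by
      rw [Real.norm_eq_abs, Real.abs_exp]; exact hle v q)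
  rw [moment_eq ρ ν hwm, moment_eq ρ ν hw₁, moment_eq ρ ν hw₂, integral_integral (hi w hwm),
    integral_integral (hi w₁ hw₁), integral_integral (hi w₂ hw₂), ← integral_const_mul,
    ← integral_const_mul, ← integral_add ((hi w₁ hw₁).const_mul _) ((hi w₂ hw₂).const_mul _)]
  refine integral_mono (hi w hwm)
    (((hi w₁ hw₁).const_mul _).fun_add ((hi w₂ hw₂).const_mul _)) fun q => ?_
  have := convexOn_exp.2 (Set.mem_univ (-(∑ i, (∑ l, q.2 l * w₁ (q.1 l) i) ^ 2) / 2))
    (Set.mem_univ (-(∑ i, (∑ l, q.2 l * w₂ (q.1 l) i) ^ 2) / 2)) h1 h2 hc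
  simp only [smul_eq_mul] at this
  refine le_of_eq_of_le ?_ this
  rw [hw]; congr 1; ring

/-- **One-pattern comparison.** -/
theorem one_pattern (hρ : ρ.real Set.univ < 1) (κ : ℝ)
    {f : ℝ → ℝ} (hf : ∀ x, f x = κ + Real.log (1 - cosT ρ x))
    (hwm : Measurable w) (hw₁ : Measurable w₁) (hw₂ : Measurable w₂)
    (h1 : 0 ≤ c₁) (h2 : 0 ≤ c₂) (hc : c₁ + c₂ = 1)
    (hw : ∀ (m : ℕ) (t : Fin m → ℝ) (s : Fin m → S),
      ∑ i, (∑ l, t l * w (s l) i) ^ 2
        = c₁ * ∑ i, (∑ l, t l * w₁ (s l) i) ^ 2 + c₂ * ∑ i, (∑ l, t l * w₂ (s l) i) ^ 2) :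
    c₁ * ∫ g, gain f ν w₁ g ∂gs n + c₂ * ∫ g, gain f ν w₂ g ∂gs n
      ≤ ∫ g, gain f ν w g ∂gs n := by
  set c := ρ.real Set.univ
  have hc0 : 0 ≤ c := measureReal_nonneg
  have hC := (continuous_cosT ρ).measurable
  have hX := abs_avgM_le ρ ν (n := n)
  have hlog : ∀ v : S → Fin n → ℝ, Measurable v → ∀ g : Fin n → ℝ,
      gain f ν v g = κ + Real.log (1 - avgM ρ ν v g) := fun v hv g => by
    have hi : Integrable (fun s => cosT ρ (dot g (v s))) ν :=
      Integrable.of_bound (hC.comp (by unfold dot; fun_prop)).aestronglyMeasurable c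
        (ae_of_all _ fun s => by rw [Real.norm_eq_abs]; exact abs_cosT_le ρ _)
    have h : ∫ s, Real.exp (f (dot g (v s))) ∂ν = Real.exp κ * (1 - avgM ρ ν v g) := by
      have e : ∀ s, Real.exp (f (dot g (v s))) = Real.exp κ * (1 - cosT ρ (dot g (v s))) := fun s => by
        rw [hf, Real.exp_add, Real.exp_log (by linarith [abs_le.1 (abs_cosT_le ρ (dot g (v s)))])]
      simp only [e]
      rw [integral_const_mul, integral_sub (integrable_const _) hi]
      simp [avgM]
    rw [gain, lse, h, Real.log_mul (Real.exp_pos _).ne' (by linarith [abs_le.1 (hX v g)]),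
      Real.log_exp]
  set P : (S → Fin n → ℝ) → ℕ → (Fin n → ℝ) → ℝ := fun v N g =>
    ∑ i ∈ Finset.range N, avgM ρ ν v g ^ (i + 1) / (i + 1)
  have hPi : ∀ v : S → Fin n → ℝ, Measurable v → ∀ i : ℕ,
      Integrable (fun g => avgM ρ ν v g ^ (i + 1) / ((i : ℝ) + 1)) (gs n) := fun v hv i =>
    (Integrable.of_bound ((measurable_avgM ρ ν hv).pow_const _).aestronglyMeasurable (c ^ (i + 1))
      (ae_of_all _ fun g => by
        simp only [Real.norm_eq_abs, abs_pow]; exact pow_le_pow_left₀ (abs_nonneg _) (hX v g) _)).div_const _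
  have hPlim : ∀ v : S → Fin n → ℝ, Measurable v → Tendsto (fun N => ∫ g, P v N g ∂gs n) atTop
      (𝓝 (∫ g, -Real.log (1 - avgM ρ ν v g) ∂gs n)) := fun v hv => by
    refine tendsto_integral_of_dominated_convergence (fun _ => -Real.log (1 - c))
      (fun N => (Finset.measurable_sum _ fun i _ =>
        ((measurable_avgM ρ ν hv).pow_const _).div_const _).aestronglyMeasurable)
      (integrable_const _) (fun N => ae_of_all _ fun g => ?_)
      (ae_of_all _ fun g => (Real.hasSum_pow_div_log_of_abs_lt_one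
        (lt_of_le_of_lt (hX v g) hρ)).tendsto_sum_nat)
    rw [Real.norm_eq_abs]
    refine (Finset.abs_sum_le_sum_abs _ _).trans (le_trans (Finset.sum_le_sum fun i _ => ?_)
      (sum_le_hasSum (Finset.range N) (fun i _ => by positivity)
        (Real.hasSum_pow_div_log_of_abs_lt_one (x := c) (by rwa [abs_of_nonneg hc0]))))
    rw [abs_div, abs_pow, abs_of_pos (show (0 : ℝ) < i + 1 by positivity)]
    gcongr
    exact hX v g
  have hle : ∀ N, ∫ g, P w N g ∂gs n ≤ c₁ * ∫ g, P w₁ N g ∂gs n + c₂ * ∫ g, P w₂ N g ∂gs n := fun N => by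
    simp only [P]
    rw [integral_finsetSum _ fun i _ => hPi w hwm i, integral_finsetSum _ fun i _ => hPi w₁ hw₁ i,
      integral_finsetSum _ fun i _ => hPi w₂ hw₂ i, Finset.mul_sum, Finset.mul_sum,
      ← Finset.sum_add_distrib]
    refine Finset.sum_le_sum fun i _ => ?_
    simp only [integral_div]
    rw [mul_div_assoc', mul_div_assoc', ← add_div]
    exact div_le_div_of_nonneg_right (moment_le ρ ν hwm hw₁ hw₂ h1 h2 hc hw (i + 1)) (by positivity)
  have hlimle := le_of_tendsto_of_tendsto' (hPlim w hwm)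
    (((hPlim w₁ hw₁).const_mul c₁).add ((hPlim w₂ hw₂).const_mul c₂)) hle
  have hint : ∀ v : S → Fin n → ℝ, Measurable v →
      Integrable (fun g => Real.log (1 - avgM ρ ν v g)) (gs n) := fun v hv => by
    refine Integrable.of_bound ((measurable_const.sub (measurable_avgM ρ ν hv)).log.aestronglyMeasurable)
      (max (-Real.log (1 - c)) (Real.log (1 + c))) (ae_of_all _ fun g => ?_)
    obtain ⟨ha, hb⟩ := abs_le.1 (hX v g)
    rw [Real.norm_eq_abs, abs_le]
    constructor
    · have := Real.log_le_log (by linarith) (show 1 - c ≤ 1 - avgM ρ ν v g by linarith)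
      linarith [le_max_left (-Real.log (1 - c)) (Real.log (1 + c))]
    · have := Real.log_le_log (show 0 < 1 - avgM ρ ν v g by linarith)
        (show 1 - avgM ρ ν v g ≤ 1 + c by linarith)
      linarith [le_max_right (-Real.log (1 - c)) (Real.log (1 + c))]
  have hval : ∀ v : S → Fin n → ℝ, Measurable v → ∫ g, gain f ν v g ∂gs n
      = κ - ∫ g, -Real.log (1 - avgM ρ ν v g) ∂gs n := fun v hv => by
    simp only [hlog v hv]
    rw [integral_add (integrable_const _) (hint v hv), integral_neg]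
    simp
  rw [hval w hwm, hval w₁ hw₁, hval w₂ hw₂]
  have : c₁ * κ + c₂ * κ = κ := by rw [← add_mul, hc, one_mul]
  linarith

end Vale.Agent.P157.Sphere
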