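import Vale.Agent.P157.Sphere.PriorLink
import Vale.Agent.P157.Sphere.EntBridge
import Vale.Agent.P166.Formula.Value
import Vale.Agent.P166.Casc.VStep

/-!
P157, sphere: the value of one-component paths is the value of the formula, and the free energy with
rows is the penalised pressure.
-/

open MeasureTheory ProbabilityTheory Filter Topology Finset

namespace Vale.Agent.P157.Sphere

open Vale.Agent.P166
open P166.Formula (gridM TPath Adm pathVal rowVal dTot qTot tfrac typD liftM IsPath)
open P150.Fast.Dom (arrMap arrMap_apply)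

section Recursion

variable {K : ℕ}

/-- The last step of the recursion. -/
theorem grec_last : ∀ (K : ℕ) (m d : Fin (K + 1) → ℝ) (F : ℝ → ℝ),
    Ising.grec (K + 1) m d F = Ising.grec K (fun l => m l.castSucc) (fun l => d l.castSucc)
      (Ising.gstep (m (Fin.last K)) (d (Fin.last K)) F)
  | 0, m, d, F => rfl
  | K + 1, m, d, F => by
    rw [Ising.grec, grec_last K (fun l => m l.succ) (fun l => d l.succ) F, Ising.grec]
    rfl

/-- The factor of one component with variance `s`. -/
noncomputable def facS (s : ℝ) : Fin 1 → Fin 1 → ℝ := fun _ _ => √s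

theorem cq_fac1 {s : ℝ} (hs : 0 ≤ s) (u : Fin 1 → ℝ) :
    P166.Formula.cq (facS s) u = s * u 0 ^ 2 := by
  simp [P166.Formula.cq, facS, mul_pow, Real.sq_sqrt hs, mul_comm]

theorem cq_facOf1 {A : Matrix (Fin 1) (Fin 1) ℝ} (hA : 0 ≤ A 0 0) (u : Fin 1 → ℝ) :
    P166.Formula.cq (P166.Formula.facOf A) u = P166.Formula.cq (facS (A 0 0)) u := by
  have hp : A.PosSemidef := by
    have e : A = Matrix.diagonal fun _ => A 0 0 := by ext i j; fin_cases i; fin_cases j; simp
    rw [e]
    exact Matrix.PosSemidef.diagonal fun _ => hA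
  rw [P166.Formula.cq_facOf hp, cq_fac1 hA]
  simp [dotProduct, Matrix.mulVec]
  ring

theorem integral_fin1 (F : (Fin 1 → ℝ) → ℝ) :
    ∫ z, F z ∂Casc.gaus (Fin 1) = ∫ x, F (fun _ => x) ∂gaussianReal 0 1 := by
  have h : MeasurePreserving (MeasurableEquiv.funUnique (Fin 1) ℝ) (Casc.gaus (Fin 1))
      (gaussianReal 0 1) := measurePreserving_funUnique (gaussianReal 0 1) (Fin 1)
  rw [← h.integral_comp (MeasurableEquiv.measurableEmbedding _) fun x => F fun _ => x]
  refine integral_congr_ae (ae_of_all _ fun z => congrArg F (funext fun i => ?_))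
  simp [MeasurableEquiv.funUnique, Subsingleton.elim i default]

theorem arrMap_facS (s : ℝ) (x : Fin 1 → ℝ) : arrMap (facS s) x = fun _ => √s * x 0 := by
  funext k
  simp [arrMap_apply, facS]

/-- A cascade of one component is the scalar recursion. -/
theorem casc_fac1 : ∀ (K : ℕ) (m s : Fin K → ℝ) (G : (Fin 1 → ℝ) → ℝ) (h : Fin 1 → ℝ),
    Casc.casc (Casc.gaus (Fin 1)) K m
        (fun y => G (P166.Formula.rowFld (fun l => facS (s l)) h y))
      = Ising.grec K m s (fun x => G fun _ => x) (h 0)
  | 0, m, s, G, h => by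
    simp only [Casc.casc, Ising.grec, P166.Formula.rowFld, Finset.univ_eq_empty, Finset.sum_empty,
      add_zero]
    exact congrArg G (funext fun i => by rw [Subsingleton.elim i 0])
  | K + 1, m, s, G, h => by
    rw [P166.Formula.casc_fld_succ, Ising.grec, Ising.gstep, integral_fin1]
    simp only [casc_fac1 K, arrMap_facS, Pi.add_apply]

/-- The value of one row of one component is the recursion of the formula. -/
theorem rowVal_eq_energy {f : ℝ → ℝ} (hf : Measurable f) {q : Fin (K + 1) → ℝ} (hm : Monotone q)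
    (h0 : 0 ≤ q 0) (h1 : q (Fin.last K) ≤ 1) {Q : ℕ → Matrix (Fin 1) (Fin 1) ℝ}
    (hQ : ∀ l : Fin (K + 1), Q l 0 0 = q l) :
    rowVal (fun y => f (y 0)) K 1 Q = energy f q := by
  have hf' : Measurable fun y : Fin 1 → ℝ => f (y 0) := hf.comp (measurable_pi_apply 0)
  set T := P166.Formula.facOf ((1 : Matrix (Fin 1) (Fin 1) ℝ) - Q K)
  set S := fun l : Fin K => P166.Formula.facOf (Q (l.val + 1) - Q l.val)
  have hK : (1 : Matrix (Fin 1) (Fin 1) ℝ) 0 0 - Q K 0 0 = 1 - q (Fin.last K) := by
    rw [← hQ, Matrix.one_apply_eq, Fin.val_last]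
  have hS : ∀ (l : Fin K) u, P166.Formula.cq (S l) u
      = P166.Formula.cq (facS (q l.succ - q l.castSucc)) u := fun l u => by
    have e : (Q (l.val + 1) - Q l.val) 0 0 = q l.succ - q l.castSucc := by
      rw [Matrix.sub_apply, ← hQ, ← hQ, Fin.val_succ, Fin.val_castSucc]
    rw [← e]
    exact cq_facOf1 (by rw [e, sub_nonneg]; exact hm (Fin.castSucc_le_succ l)) u
  have hA : ∀ u, P166.Formula.cq (P166.Formula.facOf (Q 0)) u = P166.Formula.cq (facS (q 0)) u :=
    fun u => by
      have e : Q 0 0 0 = q 0 := hQ 0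
      rw [← e]
      exact cq_facOf1 (by rw [e]; exact h0) u
  show P166.Formula.rowCasc (P166.Formula.rowLeaf (fun y => f (y 0)) T) (P166.Formula.facOf (Q 0)) S
    = _
  rw [P166.Formula.rowCasc_congr hA hS (P166.Formula.measurable_rowLeaf hf' T)]
  have hleaf : (fun x : ℝ => P166.Formula.rowLeaf (fun y : Fin 1 → ℝ => f (y 0)) T fun _ => x)
      = Ising.gstep 1 (1 - q (Fin.last K)) f := by
    funext x
    simp only [P166.Formula.rowLeaf, Ising.gstep, inv_one, one_mul]
    rw [P166.Formula.integral_image_eq (S' := facS (1 - q (Fin.last K))) (fun u => ?_)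
      (F := fun v => Real.exp (f (((fun _ : Fin 1 => x) + v) 0)))
      (hf'.comp (measurable_const_add _)).exp, integral_fin1]
    · simp only [arrMap_facS, Pi.add_apply]
    · rw [← hK, ← Matrix.sub_apply]
      exact cq_facOf1 (by rw [Matrix.sub_apply, hK]; linarith) u
  simp only [P166.Formula.rowCasc, energy, casc_fac1, hleaf]
  rw [integral_fin1]
  refine integral_congr_ae (ae_of_all _ fun z => ?_)
  simp only [arrMap_facS]
  rw [grec_last]
  have hsn : ∀ l : Fin K, (Fin.snoc q (1 : ℝ) : Fin (K + 2) → ℝ) l.castSucc.succ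
      - (Fin.snoc q (1 : ℝ) : Fin (K + 2) → ℝ) l.castSucc.castSucc = q l.succ - q l.castSucc :=
    fun l => by rw [Fin.succ_castSucc, Fin.snoc_castSucc, Fin.snoc_castSucc]
  simp only [hsn]
  simp only [Fin.val_castSucc, Fin.val_last, Fin.succ_last, Fin.snoc_last, Fin.snoc_castSucc]
  rw [show (((K : ℕ) : ℝ) + 1) / ((K : ℝ) + 1) = 1 from div_self (by positivity)]
  rfl

end Recursion

section Types

theorem occ_univ : Pen.Occupied one1 (Finset.univ : Finset (Fin 1)) :=
  ⟨Finset.univ_nonempty, fun _ _ l hl => absurd (Finset.mem_univ l) hl⟩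

theorem occ_one {t : Finset (Fin 1)} (h : Pen.Occupied one1 t) : t = Finset.univ := by
  obtain ⟨k, hk⟩ := h.1
  exact Finset.eq_univ_of_forall fun i => Subsingleton.elim k i ▸ hk

theorem one1_pos : ∀ k : Fin 1, 0 < one1 k ∧ one1 k ≤ 1 := fun _ => ⟨one_pos, le_rfl⟩

theorem tfrac_univ1 : tfrac one1 (Finset.univ : Finset (Fin 1)) = 1 := by
  rw [tfrac, P166.Formula.tLo, Finset.compl_univ, Finset.fold_empty, P166.Formula.tHi]
  simp [one1]

theorem sum_tfrac (F : Finset (Fin 1) → ℝ) : ∑ t, tfrac one1 t * F t = F Finset.univ := by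
  rw [Finset.sum_eq_single (Finset.univ : Finset (Fin 1)) (fun t _ ht => ?_) (by simp),
    tfrac_univ1, one_mul]
  have hz : t = ∅ := Finset.eq_empty_of_forall_notMem fun i hi => ht
    (Finset.eq_univ_of_forall fun j => Subsingleton.elim i j ▸ hi)
  subst hz
  simp [tfrac, P166.Formula.tHi, P166.Formula.tLo, one1]

theorem goodCentre_ctr : Pen.GoodCentre one1 1 1 ctr := by
  refine ⟨⟨fun t k l => rfl, fun t k l h => ?_⟩, fun i => ?_, fun t ht v _ => ?_⟩
  · refine if_neg fun h0 : (0 : Fin 1) ∈ t => h ⟨?_, ?_, ?_⟩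
    · rw [show t = Finset.univ from Finset.eq_univ_of_forall fun i : Fin 1 => by
        rwa [Subsingleton.elim i 0]]
      exact occ_univ
    · rwa [Subsingleton.elim k 0]
    · rwa [Subsingleton.elim l 0]
  · unfold ctr; split_ifs <;> simp
  · simp [occ_one ht, ctr, pow_two]

theorem typD_ctr (b b' : Fin (Finset.univ : Finset (Fin 1)).card) :
    typD one1 ctr Finset.univ b b' = 1 := by
  rw [typD, tfrac_univ1, inv_one, one_smul]
  simp only [P166.Formula.tmat, Matrix.of_apply]
  simp [ctr]

theorem dTot_ctr : dTot ctr = 1 := by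
  ext k l
  rw [Subsingleton.elim k 0, Subsingleton.elim l 0, Matrix.one_apply_eq, dTot, Matrix.of_apply,
    Finset.sum_eq_single (Finset.univ : Finset (Fin 1)) (fun t _ ht => ?_) (by simp)]
  · simp [ctr]
  · exact if_neg fun h => ht (Finset.eq_univ_of_forall fun i => by rwa [Subsingleton.elim i 0])

variable {K : ℕ} {a : Fin (K + 1) → ℝ}

theorem qTot_scalar {q : TPath 1} (ha : ∀ (l : Fin (K + 1)) b b', q Finset.univ l b b' = a l)
    (l : Fin (K + 1)) : qTot one1 q l 0 0 = a l := by
  rw [qTot, Matrix.sum_apply]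
  simp only [Matrix.smul_apply, smul_eq_mul]
  rw [sum_tfrac]
  obtain ⟨b, hb⟩ := P166.Casc.exists_comp (Finset.mem_univ (0 : Fin 1))
  rw [← hb, P166.Formula.liftM_apply_comp, ha]

/-- The entropy of a one-component path. -/
theorem ent_scalar {n : ℕ} (hn : n = 1) {D : Matrix (Fin n) (Fin n) ℝ} (hD : ∀ i j, D i j = 1)
    {X : ℕ → Matrix (Fin n) (Fin n) ℝ} (hX : ∀ (l : Fin (K + 1)) i j, X l i j = a l) :
    P166.Formula.ent (gridM K) K 1 D X = entropy a := by
  subst hn
  have hD1 : D = 1 := by ext i j; fin_cases i; fin_cases j; simpa using hD 0 0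
  have hX1 : ∀ l, l ≤ K → X l = matPath a l := fun l hl => by
    ext i j
    fin_cases i; fin_cases j
    have e : (⟨min l K, by omega⟩ : Fin (K + 1)) = ⟨l, Nat.lt_succ_of_le hl⟩ :=
      Fin.ext (Nat.min_eq_left hl)
    simpa [matPath, e] using hX ⟨l, Nat.lt_succ_of_le hl⟩ 0 0
  have ht : ∀ l, l ≤ K → P166.Formula.tT (gridM K) K 1 X l
      = P166.Formula.tT (gridM K) K 1 (matPath a) l := fun l hl => by
    simp only [P166.Formula.tT, P166.Formula.tail, hX1 l hl]
    congr 2
    refine Finset.sum_congr rfl fun j hj => ?_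
    rw [hX1 j (Finset.mem_Ioc.1 hj).2]
  rw [entropy_eq_ent, hD1]
  simp only [P166.Formula.ent, P166.Formula.levelSum, hX1 0 (Nat.zero_le K), ht 0 (Nat.zero_le K),
    ht K le_rfl]
  congr 6
  refine Finset.sum_congr rfl fun (l : ℕ) hl => ?_
  have := Finset.mem_range.1 hl
  rw [ht (l + 1) (by omega), ht l (by omega)]

/-- The value of a one-component path is that of the formula. -/
theorem pathVal_scalar (P : Casc.Pot) (α : ℝ) {q : TPath 1}
    (ha : ∀ (l : Fin (K + 1)) b b', q Finset.univ l b b' = a l) (hm : Monotone a) (h0 : 0 ≤ a 0)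
    (h1 : a (Fin.last K) ≤ 1) :
    pathVal 1 (vpot P).f one1 α ctr K q = α * energy P.f a + entropy a := by
  have hf : Measurable P.f :=
    (continuous_iff_continuousAt.2 fun x => (P.d1 x).continuousAt).measurable
  rw [pathVal, dTot_ctr, sum_tfrac fun t => P166.Formula.ent (gridM K) K 1 (typD one1 ctr t) (q t),
    ent_scalar (by simp) typD_ctr ha]
  exact congrArg (α * · + entropy a) (rowVal_eq_energy hf hm h0 h1 (qTot_scalar ha))

/-- The family of paths of a scalar path. -/
noncomputable def pathT (a : Fin (K + 1) → ℝ) : TPath 1 :=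
  fun _ l => Matrix.diagonal fun _ => a ⟨min l K, by omega⟩

theorem fin_card_univ (b b' : Fin (Finset.univ : Finset (Fin 1)).card) : b = b' :=
  Fin.ext (by
    have h1 := b.isLt
    have h2 := b'.isLt
    simp only [Finset.card_univ, Fintype.card_fin] at h1 h2
    omega)

theorem pathT_apply (a : Fin (K + 1) → ℝ) (l : Fin (K + 1))
    (b b' : Fin (Finset.univ : Finset (Fin 1)).card) : pathT a Finset.univ l b b' = a l := by
  rw [fin_card_univ b b', pathT, Matrix.diagonal_apply_eq]
  exact congrArg a (Fin.ext (Nat.min_eq_left (Nat.le_of_lt_succ l.isLt)))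

theorem adm_pathT (hm : Monotone a) (h0 : 0 ≤ a 0) (h1 : a (Fin.last K) < 1) :
    Adm one1 ctr K (pathT a) where
  path t _ := ⟨Matrix.PosSemidef.diagonal fun _ => h0.trans (hm (Fin.zero_le _)), fun l hl => by
    simp only [pathT, Matrix.diagonal_sub]
    exact Matrix.PosSemidef.diagonal fun _ => sub_nonneg.2 (hm (by
      rw [Fin.le_def]; simp only; omega))⟩
  top t ht := by
    obtain rfl := occ_one ht
    have e : typD one1 ctr Finset.univ - pathT a Finset.univ K
        = Matrix.diagonal fun _ => 1 - a (Fin.last K) := by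
      ext b b'
      obtain rfl := fin_card_univ b b'
      rw [Matrix.sub_apply, typD_ctr, Matrix.diagonal_apply_eq]
      exact congrArg (1 - ·) (pathT_apply a (Fin.last K) b b)
    rw [e]
    exact Matrix.PosDef.diagonal fun _ => sub_pos.2 h1

/-- An admissible family is that of a scalar path. -/
theorem scalar_of_adm {q : TPath 1} (hq : Adm one1 ctr K q) :
    ∃ a : Fin (K + 1) → ℝ, (∀ (l : Fin (K + 1)) b b', q Finset.univ l b b' = a l) ∧ Monotone a ∧
      0 ≤ a 0 ∧ a (Fin.last K) < 1 := by
  set b0 : Fin (Finset.univ : Finset (Fin 1)).card := ⟨0, by simp⟩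
  have hp := hq.path Finset.univ occ_univ
  refine ⟨fun l => q Finset.univ l b0 b0, fun l b b' => by
    rw [fin_card_univ b b0, fin_card_univ b' b0], ?_, hp.nonneg.diag_nonneg, ?_⟩
  · refine Fin.monotone_iff_le_succ.2 fun l => ?_
    have h := (hp.step l.val l.isLt).diag_nonneg (i := b0)
    rw [Matrix.sub_apply, sub_nonneg] at h
    simpa using h
  · have h := (hq.top Finset.univ occ_univ).diag_pos (i := b0)
    rw [Matrix.sub_apply, typD_ctr, sub_pos] at h
    exact h

/-- A lower bound by every value at a number of levels bounds the value of the formula. -/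
theorem value_le_pathVal (P : Casc.Pot) (α : ℝ) {q : TPath 1} (hq : Adm one1 ctr K q) :
    value K α P.f ≤ ((pathVal 1 (vpot P).f one1 α ctr K q : ℝ) : EReal) := by
  obtain ⟨a, ha, hm, h0, h1⟩ := scalar_of_adm hq
  rw [pathVal_scalar P α ha hm h0 h1.le]
  exact iInf₂_le_of_le a ⟨hm, h0, h1⟩ le_rfl

end Types

/-- The free energy with rows is the penalised pressure. -/
theorem rowsFree_eq_pen (P : Casc.Pot) {lam : ℝ} (hlam : 0 ≤ lam) (Bc : ℝ) (N M : ℕ) :
    P166.Casc.rowsFree 1 (vpot P).f one1 Bc lam ctr M N = pen P.f lam Bc N M := by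
  have hfc : Continuous P.f := continuous_iff_continuousAt.2 fun x => (P.d1 x).continuousAt
  rw [P166.Casc.rowsFree, ← (mp_pats N M).map_eq,
    integral_map (mp_pats N M).measurable.aemeasurable]
  · refine integral_congr_ae (ae_of_all _ fun G => congrArg Real.log ?_)
    refine Eq.trans (integral_congr_ae (ae_of_all _ fun ω => congrArg Real.exp
      (Finset.sum_congr rfl fun i _ => congrArg P.f (Finset.sum_congr rfl fun j _ => ?_))))
      (spinMeas_integral lam Bc fun x => ham P.f scl G x)
    have hj : j.val < Pen.blk one1 N 0 := by simp [Pen.blk, one1]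
    simp only [P166.Casc.cfgOf, if_pos hj, Real.sqrt_one, one_mul, scl]
    ring
  · have := P166.Casc.spinMeas_finite (τ := 1) (γ := one1) (B := Bc) (N := N) hlam ctr
    refine ((StronglyMeasurable.integral_prod_right'
      (f := fun z : (Fin M × Fin N → ℝ) × (Fin 1 → Fin N → ℝ) => Real.exp (∑ i, (vpot P).f
        fun k => ∑ j, P166.Casc.cfgOf 1 one1 z.2 j k / √(N : ℝ) * z.1 (i, j)))
      (ν := P166.Casc.spinMeas 1 one1 Bc lam ctr N) ?_).measurable.log).aestronglyMeasurable
    refine (Real.continuous_exp.comp ?_).measurable.stronglyMeasurable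
    simp only [vpot, P166.Casc.cfgOf]
    refine continuous_finsetSum _ fun i _ => hfc.comp (continuous_finsetSum _ fun j _ => ?_)
    split_ifs <;> fun_prop

end Vale.Agent.P157.Sphere
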