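import Vale.Agent.P157.Sphere.PathBridge
import Vale.Agent.P157.Sphere.Engine
import Vale.Agent.P166.Pen.PenLimit

/-!
P157, sphere: bounds on the free energy with rows by values of families of paths give the bounds on
the penalised pressure by the values of the formula.
-/

open MeasureTheory ProbabilityTheory Filter Topology

namespace Vale.Agent.P157.Sphere

open Vale.Agent.P166
open P166.Formula (Adm pathVal gVal)

/-- Bounds by paths, at a cut wide enough for the centre, give the bounds on the pressure. -/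
theorem penBounds_of_paths {α : ℝ} (hα : 0 ≤ α) (P : Casc.Pot)
    (up : ∀ B : ℝ, ((∑ t, ∑ k, ctr (t, k, k)) + (1 : ℕ)) / 1 + 2 * (1 : ℕ) ≤ B →
      (∀ᶠ N : ℕ in atTop, 0 < (Pen.spinLaw 1 N).real (Pen.cutSet B 1 N)) → ∀ η > (0 : ℝ),
      ∃ lam0 : ℝ, ∀ lam ≥ lam0, ∀ᶠ N : ℕ in atTop,
        P166.Casc.rowsFree 1 (vpot P).f one1 B lam ctr ⌊α * N⌋₊ N
          ≤ (gVal 1 (vpot P).f one1 α ctr + η) * N)
    (low : ∀ B : ℝ, ((∑ t, ∑ k, ctr (t, k, k)) + (1 : ℕ)) / 1 + 2 * (1 : ℕ) ≤ B →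
      (∀ᶠ N : ℕ in atTop, 0 < (Pen.spinLaw 1 N).real (Pen.cutSet B 1 N)) → ∀ η > (0 : ℝ),
      ∃ lam0 : ℝ, 0 ≤ lam0 ∧ ∀ lam ≥ lam0, ∃ K0 : ℕ, ∀ K ≥ K0, ∀ G : ℝ,
        (∀ q, Adm one1 ctr K q → G ≤ pathVal 1 (vpot P).f one1 α ctr K q) →
        ∃ κ' > (0 : ℝ), ∀ᶠ N : ℕ in atTop, ∀ M : ℕ, |(M : ℝ) - α * N| ≤ κ' * N →
          (G - η) * N ≤ P166.Casc.rowsFree 1 (vpot P).f one1 B lam ctr M N) :
    PenBounds P.f α := by
  obtain ⟨B1, hB1⟩ := Pen.cut_eventually (K := 1) 0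
  set B := max B1 (max (((∑ t, ∑ k, ctr (t, k, k)) + (1 : ℕ)) / 1 + 2 * (1 : ℕ)) 2)
  have hBd := (le_max_left _ _).trans (le_max_right B1
    (max (((∑ t, ∑ k, ctr (t, k, k)) + (1 : ℕ)) / 1 + 2 * (1 : ℕ)) 2))
  have hcut : ∀ᶠ N : ℕ in atTop, 0 < (Pen.spinLaw 1 N).real (Pen.cutSet B 1 N) :=
    (hB1 B (le_max_left _ _)).mono fun N h => h.2
  have hfb : ∀ v : Fin 1 → ℝ, |(vpot P).f v| ≤ P.bF := (vpot P).hF
  refine ⟨B, lt_of_lt_of_le one_lt_two ((le_max_right _ _).trans (le_max_right _ _)),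
    fun K q hm h0 h1 η hη => ?_, fun η hη => ?_⟩
  · obtain ⟨lam0, hl⟩ := up B hBd hcut η hη
    have hval : gVal 1 (vpot P).f one1 α ctr ≤ α * energy P.f q + entropy q := by
      rw [← pathVal_scalar P α (pathT_apply q) hm h0 h1.le]
      exact csInf_le (P166.Formula.bddBelow_valSet one1_pos one_pos goodCentre_ctr hα
        (vpot P).cf.measurable hfb) ⟨K, pathT q, adm_pathT hm h0 h1, rfl⟩
    refine ⟨max lam0 0, fun lam hlam => ?_⟩
    filter_upwards [hl lam (le_of_max_le_left hlam), eventually_gt_atTop 0] with N hN hN0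
    rw [rowsFree_eq_pen P (le_of_max_le_right hlam)] at hN
    rw [div_le_iff₀ (Nat.cast_pos.2 hN0)]
    exact hN.trans (mul_le_mul_of_nonneg_right (by linarith) (Nat.cast_nonneg N))
  · obtain ⟨lam0, hl0, hl⟩ := low B hBd hcut η hη
    refine ⟨lam0, fun lam hlam => ?_⟩
    obtain ⟨K0, hK⟩ := hl lam hlam
    refine ⟨K0, fun K hK0 => ?_⟩
    rcases eq_or_ne (value K α P.f) ⊥ with hbot | hbot
    · exact Eventually.of_forall fun N => hbot ▸ bot_le
    have htop : value K α P.f ≠ ⊤ := ((value_le α P.f (q := fun _ : Fin (K + 1) => (0 : ℝ))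
      monotone_const le_rfl one_pos).trans_lt (EReal.coe_lt_top _)).ne
    have hr := EReal.coe_toReal htop hbot
    obtain ⟨κ', hκ', hev⟩ := hK K hK0 (value K α P.f).toReal fun q hq => by
      rw [← EReal.coe_le_coe_iff, hr]
      exact value_le_pathVal P α hq
    filter_upwards [hev, eventually_ge_atTop ⌈1 / κ'⌉₊, eventually_gt_atTop 0] with N hN hge hN0
    have hN' : (0 : ℝ) < N := Nat.cast_pos.2 hN0
    have h1 : |(⌊α * N⌋₊ : ℝ) - α * N| ≤ κ' * N := by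
      have e1 := Nat.floor_le (mul_nonneg hα hN'.le)
      have e2 := Nat.lt_floor_add_one (α * (N : ℝ))
      have e3 : 1 ≤ κ' * N := by
        have := (Nat.le_ceil (1 / κ')).trans (Nat.cast_le.2 hge)
        rwa [div_le_iff₀ hκ', mul_comm] at this
      exact abs_le.2 ⟨by linarith, by linarith⟩
    have h2 := hN ⌊α * N⌋₊ h1
    rw [rowsFree_eq_pen P (hl0.trans hlam), ← le_div_iff₀ hN'] at h2
    rw [← hr]
    exact EReal.coe_le_coe_iff.2 (by linarith)

end Vale.Agent.P157.Sphere
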