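import Mathlib

/-!
P157, sphere: the expected pressure on the sphere of radius `√N`.
-/

open MeasureTheory ProbabilityTheory

namespace Vale.Agent.P157.Sphere

/-- `E p_N(f)` on the sphere of radius `√N`, written as `√N • x` for `x` on the unit sphere with its
normalised surface measure, with `⌊α N⌋` standard Gaussian patterns. -/
noncomputable def expectedPressure (f : ℝ → ℝ) (α : ℝ) (N : ℕ) : ℝ :=
  (∫ G : Fin ⌊α * N⌋₊ → Fin N → ℝ,
      Real.log (⨍ x : Metric.sphere (0 : EuclideanSpace ℝ (Fin N)) 1,
        Real.exp (∑ a, f ((∑ i, G a i * (Real.sqrt N * (x : EuclideanSpace ℝ (Fin N)) i))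
          / Real.sqrt N))
        ∂(volume : Measure (EuclideanSpace ℝ (Fin N))).toSphere)
      ∂Measure.pi (fun _ => Measure.pi (fun _ => gaussianReal 0 1))) / N

end Vale.Agent.P157.Sphere
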