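import Vale.Agent.P157.Sphere.Shell
import Vale.Agent.P166.Casc.Prior

/-!
P157, sphere: the penalised pressure is the free energy of the vector model with one component,
any number of rows, and finite priors with finer and finer atoms.
-/

open MeasureTheory ProbabilityTheory Filter Topology

namespace Vale.Agent.P157.Sphere

open Vale.Agent.P166

variable {N M L J : ℕ}

/-- A scalar potential as a potential of one component. -/
noncomputable def vpot (P : Casc.Pot) : P166.Casc.VPot 1 where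
  f y := P.f (y 0)
  g _ y := P.f1 (y 0)
  h _ _ y := P.f2 (y 0)
  e _ _ _ y := P.f3 (y 0)
  bF := P.bF
  b1 := P.b1
  b2 := P.b2
  b3 := P.b3
  d1 k y := by
    obtain rfl : k = 0 := Subsingleton.elim k 0
    simpa using P.d1 (y 0)
  d2 k l y := by
    obtain rfl : l = 0 := Subsingleton.elim l 0
    simpa using P.d2 (y 0)
  d3 k l j y := by
    obtain rfl : j = 0 := Subsingleton.elim j 0
    simpa using P.d3 (y 0)
  cf := (continuous_iff_continuousAt.2 fun x => (P.d1 x).continuousAt).comp (continuous_apply 0)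
  cg _ := (continuous_iff_continuousAt.2 fun x => (P.d2 x).continuousAt).comp (continuous_apply 0)
  ch _ _ := P.c2.comp (continuous_apply 0)
  ce _ _ _ := P.c3.comp (continuous_apply 0)
  hF y := P.hF _
  h1 _ y := P.h1 _
  h2 _ _ y := P.h2 _
  h3 _ _ _ y := P.h3 _

/-- Block fraction one. -/
def one1 : Fin 1 → ℝ := fun _ => 1

/-- Unit self-overlap of the only nonempty type. -/
def ctr : Pen.OIdx 1 → ℝ := fun i => if (0 : Fin 1) ∈ i.1 then 1 else 0

theorem ovl_sum (ω : Fin 1 → Fin N → ℝ) :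
    ∑ i, (Pen.ovl 1 one1 ω i - ctr i) ^ 2 = (qn (ω 0) / N - 1) ^ 2 := by
  have hb : Pen.blk one1 N 0 = N := by simp [Pen.blk, one1]
  have ht : ∀ j : Fin N, Pen.typ one1 j = Finset.univ := fun j =>
    Finset.filter_true_of_mem fun k _ => by rw [Subsingleton.elim k 0, hb]; exact j.isLt
  rw [Finset.sum_eq_single ((Finset.univ, 0, 0) : Pen.OIdx 1) ?_ (fun h => absurd (Finset.mem_univ _) h)]
  · simp [Pen.ovl, ctr, ht, qn, pow_two, div_eq_inv_mul]
  · rintro ⟨t, k, l⟩ - h
    have ht' : (0 : Fin 1) ∉ t := fun h0 => h (by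
      rw [show t = Finset.univ from Finset.eq_univ_of_forall fun i => by rwa [Subsingleton.elim i 0],
        Subsingleton.elim k 0, Subsingleton.elim l 0])
    simp [Pen.ovl, ctr, Subsingleton.elim k 0, ht']

/-- Patterns as one vector of coordinates. -/
theorem mp_pats (N M : ℕ) : MeasurePreserving
    (fun (G : Fin M → Fin N → ℝ) (p : Fin M × Fin N) => G p.1 p.2) (pats N M)
    (Casc.gaus (Fin M × Fin N)) := by
  have h : MeasurePreserving (MeasurableEquiv.curry (Fin M) (Fin N) ℝ)
      (Measure.pi fun _ : Fin M × Fin N => gaussianReal 0 1) (pats N M) := by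
    refine ⟨MeasurableEquiv.measurable _, ?_⟩
    have := Measure.infinitePi_map_curry fun (_ : Fin M) (_ : Fin N) => gaussianReal 0 1
    simpa [Measure.infinitePi_eq_pi, pats, gs] using this
  exact h.symm

theorem spinMeas_integral (lam Bc : ℝ) (g : (Fin N → ℝ) → ℝ) :
    ∫ ω, Real.exp (g (ω 0)) ∂P166.Casc.spinMeas 1 one1 Bc lam ctr N
      = ∫ x in {x : Fin N → ℝ | qn x ≤ Bc * N},
          Real.exp (g x - lam * N * (qn x / N - 1) ^ 2) ∂gs N := by
  rw [P166.Casc.integral_spinMeas, Pen.zpen]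
  simp only [ovl_sum]
  have hmp : MeasurePreserving (MeasurableEquiv.funUnique (Fin 1) (Fin N → ℝ))
      (Pen.spinLaw 1 N) (gs N) := measurePreserving_funUnique (gs N) (Fin 1)
  have hcut : Pen.cutSet Bc 1 N
      = MeasurableEquiv.funUnique (Fin 1) (Fin N → ℝ) ⁻¹' {x : Fin N → ℝ | qn x ≤ Bc * N} := by
    ext ω
    simp [Pen.cutSet, qn, MeasurableEquiv.funUnique, Fin.default_eq_zero]
  rw [hcut, ← hmp.setIntegral_preimage_emb (MeasurableEquiv.measurableEmbedding _)
    (fun x => Real.exp (g x - lam * N * (qn x / N - 1) ^ 2))]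
  rfl

/-- With finer atoms the vector model tends to the penalised pressure. -/
theorem tendsto_vmfree_pen {lam Bc : ℝ} (hlam : 0 ≤ lam) (P : Casc.Pot)
    (hS : 0 < (Pen.spinLaw 1 N).real (Pen.cutSet Bc 1 N)) {ε : ℕ → ℝ}
    (hε : Tendsto ε atTop (𝓝 0)) {nA : ℕ} (A : P166.Casc.Coeffs 1 nA)
    (a : ∀ W, P166.Casc.Atoms (P166.Casc.spinMeas 1 one1 Bc lam ctr N) (Pen.cutSet Bc 1 N) (ε W))
    (hL : 0 < L) {K n : ℕ} (hn : 0 < n) (Φ : P166.Casc.VFac N 1 K) :
    Tendsto (fun W => P166.Casc.vmfree (M := M) n (vpot P)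
        (P166.Casc.penPrior (γ := one1) zero_le_one A (a W) hL J) Φ (P166.Casc.rowc 1))
      atTop (𝓝 (pen P.f lam Bc N M)) := by
  have := P166.Casc.spinMeas_finite (τ := 1) (γ := one1) (B := Bc) (N := N) hlam ctr
  have hν : 0 < (P166.Casc.spinMeas 1 one1 Bc lam ctr N).real Set.univ := ENNReal.toReal_pos
    (Measure.measure_univ_ne_zero.2 (P166.Casc.spinMeas_ne hlam ctr hS)) (measure_ne_top _ _)
  have hfc : Continuous P.f := continuous_iff_continuousAt.2 fun x => (P.d1 x).continuousAt
  set E : (Fin M → Fin N → ℝ) → (Fin 1 → Fin N → ℝ) → ℝ := fun G ω => ham P.f scl G (ω 0)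
  have hEc : ∀ G, Continuous fun ω => Real.exp (E G ω) := fun G => by
    simp only [E, ham, scl, dot]; fun_prop
  set b : ℝ := M * P.bF
  have hEb : ∀ G ω, |E G ω| ≤ b := fun G ω => abs_ham_le P.hF scl G _
  set Z : ℕ → (Fin M → Fin N → ℝ) → ℝ := fun W G => ∑ σ, (a W).w σ * Real.exp (E G ((a W).x σ))
  have hmZ : ∀ W, Measurable (Z W) := fun W => by
    simp only [Z, E, ham, scl, dot]; fun_prop
  have he : ∀ W, P166.Casc.vmfree (M := M) n (vpot P)
      (P166.Casc.penPrior (γ := one1) zero_le_one A (a W) hL J) Φ (P166.Casc.rowc 1)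
        = ∫ G, Real.log (Z W G) ∂pats N M := fun W => by
    rw [P166.Casc.vmfree_rows (vpot P) _ Φ hn 1, ← (mp_pats N M).map_eq,
      integral_map (mp_pats N M).measurable.aemeasurable (by
        refine (Finset.measurable_sum _ fun σ _ => ?_).log.aestronglyMeasurable
        have := (vpot P).cf.measurable
        fun_prop)]
    refine integral_congr_ae (ae_of_all _ fun G => congrArg Real.log ?_)
    refine (P166.Casc.sum_penPrior (γ := one1) zero_le_one A (a W) hL (J := J)
      fun x _ => Real.exp (∑ i, (vpot P).f fun k => ∑ j, √(1 : ℝ) * (x j k / √(N : ℝ)) * G i j)).trans ?_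
    rw [Finset.sum_const, Finset.card_univ, Fintype.card_fin, nsmul_eq_mul, ← mul_assoc,
      mul_one_div_cancel (Nat.cast_pos.2 hL).ne', one_mul]
    refine Finset.sum_congr rfl fun σ _ => ?_
    simp only [E, ham, dot, scl, vpot, Real.sqrt_one, one_mul]
    congr 2
    refine Finset.sum_congr rfl fun i _ => congrArg P.f (Finset.sum_congr rfl fun j _ => ?_)
    have hj : j.val < Pen.blk one1 N 0 := by simp [Pen.blk, one1]
    simp only [P166.Casc.cfgOf, if_pos hj, Real.sqrt_one, one_mul]
    ring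
  have hbd : ∀ (W : ℕ) G, |Real.log (Z W G)| ≤ |Real.log ((P166.Casc.spinMeas 1 one1 Bc lam ctr N).real Set.univ)| + b := fun W G => by
    have hm : ∑ σ, (a W).w σ = (P166.Casc.spinMeas 1 one1 Bc lam ctr N).real Set.univ := by simpa using (a W).repr fun _ => 1
    have h1 : Real.exp (-b) * (P166.Casc.spinMeas 1 one1 Bc lam ctr N).real Set.univ ≤ Z W G := by
      rw [← hm, Finset.mul_sum]
      exact Finset.sum_le_sum fun σ _ => by
        rw [mul_comm]
        exact mul_le_mul_of_nonneg_left (Real.exp_le_exp.2 (neg_le_of_abs_le (hEb G _)))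
          ((a W).w_pos σ).le
    have h2 : Z W G ≤ Real.exp b * (P166.Casc.spinMeas 1 one1 Bc lam ctr N).real Set.univ := by
      rw [← hm, Finset.mul_sum]
      exact Finset.sum_le_sum fun σ _ => by
        rw [mul_comm (Real.exp _)]
        exact mul_le_mul_of_nonneg_left (Real.exp_le_exp.2 (le_of_abs_le (hEb G _)))
          ((a W).w_pos σ).le
    have l1 := Real.log_le_log (mul_pos (Real.exp_pos _) hν) h1
    have l2 := Real.log_le_log ((mul_pos (Real.exp_pos _) hν).trans_le h1) h2
    rw [Real.log_mul (Real.exp_pos _).ne' hν.ne', Real.log_exp] at l1 l2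
    exact abs_le.2 ⟨by linarith [neg_abs_le (Real.log ((P166.Casc.spinMeas 1 one1 Bc lam ctr N).real Set.univ))],
      by linarith [le_abs_self (Real.log ((P166.Casc.spinMeas 1 one1 Bc lam ctr N).real Set.univ))]⟩
  have hlim : pen P.f lam Bc N M = ∫ G, Real.log (∫ ω, Real.exp (E G ω) ∂(P166.Casc.spinMeas 1 one1 Bc lam ctr N)) ∂pats N M :=
    integral_congr_ae (ae_of_all _ fun G =>
      congrArg Real.log (spinMeas_integral lam Bc fun x => ham P.f scl G x).symm)
  rw [hlim]
  refine Tendsto.congr (fun W => (he W).symm) ?_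
  refine tendsto_integral_of_dominated_convergence
    (fun _ => |Real.log ((P166.Casc.spinMeas 1 one1 Bc lam ctr N).real Set.univ)| + b)
    (fun W => (hmZ W).log.aestronglyMeasurable) (integrable_const _)
    (fun W => ae_of_all _ fun G => hbd W G) (ae_of_all _ fun G => ?_)
  have hz : Tendsto (fun W => Z W G) atTop (𝓝 (∫ ω, Real.exp (E G ω) ∂(P166.Casc.spinMeas 1 one1 Bc lam ctr N))) :=
    P166.Casc.tendsto_atoms (h := fun ω => Real.exp (E G ω)) (P166.Casc.spinMeas 1 one1 Bc lam ctr N) (P166.Casc.isCompact_cut Bc 1 N)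
      (P166.Casc.ae_mem_cut ctr) hε a (hEc G)
  refine hz.log ?_
  have hi : Integrable (fun ω => Real.exp (E G ω)) (P166.Casc.spinMeas 1 one1 Bc lam ctr N) :=
    (integrable_const (Real.exp b)).mono' (hEc G).aestronglyMeasurable (ae_of_all _ fun ω => by
      rw [Real.norm_eq_abs, abs_of_pos (Real.exp_pos _)]
      exact Real.exp_le_exp.2 (le_of_abs_le (hEb G ω)))
  have h : Real.exp (-b) * (P166.Casc.spinMeas 1 one1 Bc lam ctr N).real Set.univ ≤ ∫ ω, Real.exp (E G ω) ∂(P166.Casc.spinMeas 1 one1 Bc lam ctr N) :=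
    le_of_eq_of_le (by simp [mul_comm]) (integral_mono (integrable_const _) hi
      fun ω => Real.exp_le_exp.2 (neg_le_of_abs_le (hEb G ω)))
  exact ((mul_pos (Real.exp_pos _) hν).trans_le h).ne'

end Vale.Agent.P157.Sphere
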