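import Vale.Agent.P157.Sphere.Abstract
import Vale.Agent.P226.Full.CapBasic
import Vale.Agent.P150.Scalar

/-!
Radial decomposition of a standard Gaussian vector and the uniform law on the sphere.
-/

open MeasureTheory ProbabilityTheory Filter Topology Real Set

namespace Vale.Agent.P157.Sphere

variable {n : ℕ}

/-- Squared Euclidean length. -/
def qn (g : Fin n → ℝ) : ℝ := ∑ i, g i ^ 2

/-- Direction of a vector. -/
noncomputable def dir (g : Fin n → ℝ) : Fin n → ℝ := fun i => g i / √(qn g)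

/-- A point of the unit sphere as a tuple. -/
def pt (u : Metric.sphere (0 : EuclideanSpace ℝ (Fin n)) 1) : Fin n → ℝ :=
  fun i => (u : EuclideanSpace ℝ (Fin n)) i

/-- Uniform probability measure on the unit sphere. -/
noncomputable def unifS (n : ℕ) : Measure (Metric.sphere (0 : EuclideanSpace ℝ (Fin n)) 1) :=
  ((volume : Measure (EuclideanSpace ℝ (Fin n))).toSphere Set.univ)⁻¹ •
    (volume : Measure (EuclideanSpace ℝ (Fin n))).toSphere

@[fun_prop]
theorem measurable_qn : Measurable (qn : (Fin n → ℝ) → ℝ) := by unfold qn; fun_prop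

@[fun_prop]
theorem measurable_dir : Measurable (dir : (Fin n → ℝ) → Fin n → ℝ) := by unfold dir; fun_prop

theorem measurable_pt : Measurable (pt (n := n)) := by unfold pt; fun_prop

theorem qn_dir_le (g : Fin n → ℝ) : qn (dir g) ≤ 1 := by
  simp only [qn, dir, div_pow, ← Finset.sum_div]
  rw [Real.sq_sqrt (Finset.sum_nonneg fun i _ => sq_nonneg _)]
  exact div_self_le_one _

theorem polar (hn : 0 < n) :
    ∃ J : Measure ℝ, ∀ (S : Set (Fin n → ℝ)) (T : Set ℝ), MeasurableSet S → MeasurableSet T →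
      gs n (dir ⁻¹' S ∩ qn ⁻¹' T)
        = (volume : Measure (EuclideanSpace ℝ (Fin n))).toSphere (pt ⁻¹' S) * J T := by
  have : Nonempty (Fin n) := ⟨⟨0, hn⟩⟩
  set μ := (volume : Measure (EuclideanSpace ℝ (Fin n)))
  set R := Measure.volumeIoiPow (Module.finrank ℝ (EuclideanSpace ℝ (Fin n)) - 1)
  set ρ : Ioi (0 : ℝ) → ENNReal := fun r => ENNReal.ofReal (P226.gRad n r.1)
  have hρ : Measurable ρ := (P226.measurable_gRad.comp measurable_subtype_coe).ennreal_ofReal
  refine ⟨(R.withDensity ρ).map fun r => r.1 ^ 2, fun S T hS hT => ?_⟩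
  have hA : MeasurableSet (dir ⁻¹' S ∩ qn ⁻¹' T : Set (Fin n → ℝ)) :=
    (measurable_dir hS).inter (measurable_qn hT)
  have hR : MeasurableSet ((fun r : Ioi (0 : ℝ) => r.1 ^ 2) ⁻¹' T) :=
    (measurable_subtype_coe.pow_const 2) hT
  rw [Measure.map_apply (by fun_prop) hT, withDensity_apply _ hR,
    ← lintegral_indicator hR, ← lintegral_indicator_one (measurable_pt hS),
    ← lintegral_prod_mul (measurable_one.indicator (measurable_pt hS)).aemeasurable
      (hρ.indicator hR).aemeasurable]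
  unfold gs
  rw [P226.pi_gaussian_eq_withDensity, withDensity_apply _ hA, ← lintegral_indicator hA,
    ← (PiLp.volume_preserving_ofLp (Fin n)).lintegral_comp
      ((Measurable.ennreal_ofReal (by fun_prop)).indicator hA),
    show (∫⁻ a, (dir ⁻¹' S ∩ qn ⁻¹' T).indicator (fun x => ENNReal.ofReal (∏ i, gaussianPDFReal 0 1 (x i)))
        (WithLp.ofLp a) ∂μ) = ∫⁻ a in {(0 : EuclideanSpace ℝ (Fin n))}ᶜ,
        (dir ⁻¹' S ∩ qn ⁻¹' T).indicator (fun x => ENNReal.ofReal (∏ i, gaussianPDFReal 0 1 (x i)))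
        (WithLp.ofLp a) ∂μ from by rw [restrict_compl_singleton],
    ← lintegral_subtype_comap (measurableSet_singleton _).compl,
    ← (μ.measurePreserving_homeomorphUnitSphereProd).lintegral_comp_emb
      (Homeomorph.measurableEmbedding _)]
  refine lintegral_congr fun x => ?_
  obtain ⟨x, hx⟩ := x
  have hq : qn (WithLp.ofLp x) = ‖x‖ ^ 2 := (EuclideanSpace.real_norm_sq_eq x).symm
  have hd : dir (WithLp.ofLp x) = pt (homeomorphUnitSphereProd (EuclideanSpace ℝ (Fin n)) ⟨x, hx⟩).1 := by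
    ext i
    simp [dir, pt, hq, Real.sqrt_sq (norm_nonneg x), div_eq_inv_mul]
  have hr : ((homeomorphUnitSphereProd (EuclideanSpace ℝ (Fin n)) ⟨x, hx⟩).2 : ℝ) = ‖x‖ := by simp
  by_cases h1 : dir (WithLp.ofLp x) ∈ S <;> by_cases h2 : qn (WithLp.ofLp x) ∈ T <;>
    simp [Set.indicator_apply, h1, h2, ← hd, ← hq, hr, ρ, P226.prod_pdf_eq]

theorem polar_norm (hn : 0 < n) :
    (∀ (S : Set (Fin n → ℝ)) (T : Set ℝ), MeasurableSet S → MeasurableSet T →
      gs n (dir ⁻¹' S ∩ qn ⁻¹' T) = gs n (dir ⁻¹' S) * gs n (qn ⁻¹' T)) ∧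
    (gs n).map dir = (unifS n).map pt := by
  obtain ⟨J, hJ⟩ := polar hn
  set U := (volume : Measure (EuclideanSpace ℝ (Fin n))).toSphere Set.univ
  have hUJ : U * J Set.univ = 1 := by simpa [U] using (hJ _ _ .univ .univ).symm
  have hS : ∀ S, MeasurableSet S → gs n (dir ⁻¹' S)
      = (volume : Measure (EuclideanSpace ℝ (Fin n))).toSphere (pt ⁻¹' S) * J Set.univ := fun S hS => by
    simpa using hJ S _ hS .univ
  refine ⟨fun S T hS' hT => ?_, Measure.ext fun S hS' => ?_⟩
  · have hT' : gs n (qn ⁻¹' T) = U * J T := by simpa [U] using hJ _ T .univ hT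
    rw [hJ S T hS' hT, hS S hS', hT']
    calc _ = (volume : Measure (EuclideanSpace ℝ (Fin n))).toSphere (pt ⁻¹' S) * J T * (U * J univ) := by
          rw [hUJ, mul_one]
      _ = _ := by ring
  · rw [Measure.map_apply measurable_dir hS', Measure.map_apply measurable_pt hS', hS S hS', unifS,
      Measure.smul_apply, smul_eq_mul, mul_comm]
    congr 1
    exact ENNReal.eq_inv_of_mul_eq_one_left (by rwa [mul_comm])

theorem qn_concentration (n : ℕ) :
    1 / 2 ≤ (gs n).real {g : Fin n → ℝ | |qn g - n| ≤ 4 * √n} := by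
  rcases Nat.eq_zero_or_pos n with rfl | hn
  · simp [qn]; norm_num
  have hn' : (0 : ℝ) < n := by exact_mod_cast hn
  set μ := fun _ : Fin n => gaussianReal 0 1
  have hp : ∀ k : ℕ, MemLp (fun x : ℝ => x ^ 2) 2 (gaussianReal 0 1) := fun _ =>
    (memLp_two_iff_integrable_sq (by fun_prop)).2
      ((P150.integrable_pow_gauss 4).congr (ae_of_all _ fun x => by ring))
  have h2 : ∫ x, x ^ 2 ∂gaussianReal 0 1 = 1 := by simpa using P150.moment_step 0
  have h4 : ∫ x, x ^ 4 ∂gaussianReal 0 1 = 3 := by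
    have := P150.moment_step 2; norm_num [h2] at this; linarith
  have hv : Var[fun x : ℝ => x ^ 2; gaussianReal 0 1] = 2 := by
    rw [variance_eq_sub (hp 0)]
    simp only [Pi.pow_apply, h2]
    rw [show (fun x : ℝ => (x ^ 2) ^ 2) = fun x => x ^ 4 by ext; ring, h4]; norm_num
  have hm : ∀ i : Fin n, MemLp (fun g : Fin n → ℝ => g i ^ 2) 2 (gs n) := fun i =>
    (hp 0).comp_measurePreserving (measurePreserving_eval μ i)
  have hmean : ∫ g, qn g ∂gs n = n := by
    unfold qn
    rw [integral_finsetSum _ fun i _ => (hm i).integrable (by norm_num)]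
    have : ∀ i : Fin n, ∫ g, g i ^ 2 ∂gs n = 1 := fun i => by
      rw [gs, integral_comp_eval (f := fun x => x ^ 2) (by fun_prop), h2]
    simp [this]
  have hvar : Var[qn; gs n] = 2 * n := by
    have := variance_sum_pi (μ := fun _ : Fin n => gaussianReal 0 1) (X := fun _ x => x ^ 2) fun _ => hp 0
    simp only [hv, Finset.sum_const, Finset.card_univ, Fintype.card_fin, nsmul_eq_mul] at this
    rw [mul_comm, ← this]
    congr 1
    ext g; simp [qn]
  have hq : MemLp (qn : (Fin n → ℝ) → ℝ) 2 (gs n) := memLp_finsetSum _ fun i _ => hm i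
  have hc := meas_ge_le_variance_div_sq hq (c := 4 * √n) (by positivity)
  rw [hmean, hvar, mul_pow, Real.sq_sqrt hn'.le] at hc
  have hbad : (gs n).real {g : Fin n → ℝ | 4 * √n ≤ |qn g - n|} ≤ 1 / 8 := by
    refine ENNReal.toReal_le_of_le_ofReal (by norm_num) (hc.trans (le_of_eq ?_))
    congr 1; field_simp; norm_num
  have hcov : (1 : ℝ) ≤ (gs n).real {g : Fin n → ℝ | |qn g - n| ≤ 4 * √n}
      + (gs n).real {g : Fin n → ℝ | 4 * √n ≤ |qn g - n|} := by
    refine le_trans (le_of_eq (probReal_univ (μ := gs n)).symm)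
      (le_trans (measureReal_mono ?_) (measureReal_union_le _ _))
    intro g _; exact le_total (|qn g - n|) (4 * √n)
  linarith

end Vale.Agent.P157.Sphere
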