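import Vale.Agent.P157.Sphere.Borel

/-!
P157, sphere: the pressure on the sphere against the Gaussian model with the squared length
penalised around `N`, inside a cut.
-/

open MeasureTheory ProbabilityTheory Filter Topology Real Set

namespace Vale.Agent.P157.Sphere

variable {n : ℕ} {f : ℝ → ℝ} {B L : ℝ}

/-- A Gaussian configuration scaled to length about one. -/
noncomputable def scl (x : Fin n → ℝ) : Fin n → ℝ := fun i => x i / √(n : ℝ)

/-- Expected log partition function of Gaussian configurations with the squared length penalised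
around `n`, inside the cut `Bc`. -/
noncomputable def pen (f : ℝ → ℝ) (lam Bc : ℝ) (n M : ℕ) : ℝ :=
  ∫ G, Real.log (∫ x in {x : Fin n → ℝ | qn x ≤ Bc * n},
    Real.exp (ham f scl G x - lam * n * (qn x / n - 1) ^ 2) ∂gs n) ∂pats n M

/-- Configurations with squared length close to `n`. -/
def near (n : ℕ) (δ : ℝ) : Set (Fin n → ℝ) := {x | |qn x / n - 1| ≤ δ}

theorem measurable_scl : Measurable (scl (n := n)) := by unfold scl; fun_prop

theorem measurableSet_near (n : ℕ) (δ : ℝ) : MeasurableSet (near n δ) :=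
  measurableSet_le (by fun_prop) measurable_const

theorem qn_scl_sub_dir (hn : 0 < n) (x : Fin n → ℝ) :
    qn (scl x - dir x) ≤ (qn x / n - 1) ^ 2 := by
  have hn' : (0 : ℝ) < n := by exact_mod_cast hn
  rcases (show 0 ≤ qn x from Finset.sum_nonneg fun i _ => sq_nonneg _).eq_or_lt with h | h
  · have hx : ∀ i, x i = 0 := fun i => by
      have := (Finset.sum_eq_zero_iff_of_nonneg fun i _ => sq_nonneg (x i)).1 h.symm i (Finset.mem_univ i)
      exact pow_eq_zero_iff two_ne_zero |>.1 this
    simp [qn, scl, dir, hx]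
  · set r := √(qn x)
    set s := √(n : ℝ)
    have hr : 0 < r := Real.sqrt_pos.2 h
    have hs : 0 < s := Real.sqrt_pos.2 hn'
    have hr2 : r ^ 2 = qn x := Real.sq_sqrt h.le
    have hs2 : s ^ 2 = n := Real.sq_sqrt hn'.le
    have e : qn (scl x - dir x) = (r / s - 1) ^ 2 := by
      calc qn (scl x - dir x) = (1 / s - 1 / r) ^ 2 * ∑ i, x i ^ 2 := by
            rw [Finset.mul_sum]
            refine Finset.sum_congr rfl fun i _ => ?_
            simp only [Pi.sub_apply, scl, dir, r, s]
            ring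
        _ = (1 / s - 1 / r) ^ 2 * r ^ 2 := by rw [hr2]; rfl
        _ = _ := by field_simp
    rw [e, ← hr2, ← hs2, ← div_pow]
    have h0 : 0 ≤ r / s := by positivity
    nlinarith [mul_nonneg (sq_nonneg (r / s - 1)) (mul_nonneg h0 (by linarith : 0 ≤ r / s + 2))]

theorem half_le_near (hn : 0 < n) {δ : ℝ} (hδ : 4 / √(n : ℝ) ≤ δ) :
    1 / 2 ≤ (gs n).real (near n δ) := by
  have hn' : (0 : ℝ) < n := by exact_mod_cast hn
  refine (qn_concentration n).trans (measureReal_mono fun x hx => ?_)
  show |qn x / n - 1| ≤ δ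
  rw [div_sub_one hn'.ne', abs_div, abs_of_pos hn']
  refine le_trans (div_le_div_of_nonneg_right hx hn'.le) (le_trans (le_of_eq ?_) hδ)
  rw [mul_div_assoc, Real.sqrt_div_self, ← div_eq_mul_inv]

variable (hf : Measurable f) (hB : ∀ x, |f x| ≤ B)
include hf hB

omit hB in
/-- The pressure on the radially conditioned configurations is that of the sphere. -/
theorem F_near_dir (hn : 0 < n) {δ : ℝ} (h0 : gs n (near n δ) ≠ 0) (M : ℕ) :
    F f ((gs n)[|near n δ]) dir M = spr f n M := by
  have hm : ((gs n)[|near n δ]).map dir = (gs n).map dir := by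
    refine Measure.ext fun s hs => ?_
    have hT : MeasurableSet {r : ℝ | |r / n - 1| ≤ δ} := measurableSet_le (by fun_prop) measurable_const
    rw [Measure.map_apply measurable_dir hs, Measure.map_apply measurable_dir hs,
      cond_apply (measurableSet_near n δ), show near n δ = qn ⁻¹' {r : ℝ | |r / n - 1| ≤ δ} from rfl,
      Set.inter_comm, (polar_norm hn).1 s _ hs hT, mul_comm (gs n (dir ⁻¹' s)), ← mul_assoc,
      ENNReal.inv_mul_cancel (by exact h0) (measure_ne_top _ _), one_mul]
  have h1 : F f (((gs n)[|near n δ]).map dir) id M = F f ((gs n)[|near n δ]) dir M :=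
    F_map hf _ measurable_dir measurable_id M
  have h2 : F f ((gs n).map dir) id M = spr f n M := F_map hf _ measurable_dir measurable_id M
  rw [← h1, hm, h2]

/-- On the conditioned configurations the scaling hardly matters. -/
theorem F_near_scl (hL : ∀ x y, |f x - f y| ≤ L * |x - y|) (hL0 : 0 ≤ L) (hn : 0 < n) {δ : ℝ}
    (hδ0 : 0 < δ) (hδ : 4 / √(n : ℝ) ≤ δ) (M : ℕ) :
    |F f ((gs n)[|near n δ]) scl M - spr f n M| ≤ M * (Real.exp (2 * B) * L * δ) := by
  have h0 : gs n (near n δ) ≠ 0 := fun h => by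
    have := half_le_near (n := n) hn hδ
    norm_num [measureReal_def, h] at this
  have hp := cond_isProbabilityMeasure h0
  classical
  have hw : Measurable ((near n δ).piecewise scl dir) :=
    measurable_scl.piecewise (measurableSet_near n δ) measurable_dir
  have hclose : ∀ x, qn ((near n δ).piecewise scl dir x - dir x) ≤ δ ^ 2 := fun x => by
    by_cases hx : x ∈ near n δ
    · rw [Set.piecewise_eq_of_mem _ _ _ hx]
      refine (qn_scl_sub_dir hn x).trans ?_
      rw [← sq_abs]
      exact pow_le_pow_left₀ (abs_nonneg _) hx 2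
    · rw [Set.piecewise_eq_of_notMem _ _ _ hx]
      simpa [qn] using sq_nonneg δ
  rw [F_congr (f := f) _ (w := scl) (w' := (near n δ).piecewise scl dir) ?_, ← F_near_dir hf hn h0 M]
  · exact F_compare hf hB hw measurable_dir
      (fun ν hν => gain_stab hf hB hL hL0 hδ0 hw measurable_dir hclose ν) M _ hp
  · filter_upwards [ae_cond_mem (μ := gs n) (measurableSet_near n δ)] with x hx
    rw [Set.piecewise_eq_of_mem _ _ _ hx]

omit hf hB in
theorem near_ne (hn : 0 < n) {δ : ℝ} (hδ : 4 / √(n : ℝ) ≤ δ) : gs n (near n δ) ≠ 0 := fun h => by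
  have := half_le_near (n := n) hn hδ
  norm_num [measureReal_def, h] at this

theorem setIntegral_near (hn : 0 < n) {δ : ℝ} (hδ : 4 / √(n : ℝ) ≤ δ) {M : ℕ}
    (G : Fin M → Fin n → ℝ) :
    ∫ x in near n δ, Real.exp (ham f scl G x) ∂gs n
      = (gs n).real (near n δ) * Real.exp (lse ((gs n)[|near n δ]) (ham f scl G)) := by
  have := cond_isProbabilityMeasure (near_ne hn hδ)
  rw [lse, Real.exp_log (lt_of_lt_of_le (Real.exp_pos _) (exp_le_integral _
    (measurable_ham_right hf measurable_scl G) fun x => abs_ham_le hB scl G x)),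
    ProbabilityTheory.cond, integral_smul_measure, smul_eq_mul, ← mul_assoc, ENNReal.toReal_inv,
    measureReal_def, mul_inv_cancel₀ (ENNReal.toReal_pos (near_ne hn hδ) (measure_ne_top _ _)).ne',
    one_mul]

/-- The integrand of the penalised model. -/
theorem wgt_facts {lam : ℝ} (hlam : 0 ≤ lam) {M : ℕ} (G : Fin M → Fin n → ℝ) :
    (∀ x, ham f scl G x - lam * n * (qn x / n - 1) ^ 2 ≤ M * B) ∧
      Integrable (fun x => Real.exp (ham f scl G x - lam * n * (qn x / n - 1) ^ 2)) (gs n) := by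
  have hle : ∀ x, ham f scl G x - lam * n * (qn x / n - 1) ^ 2 ≤ M * B := fun x => by
    have := (abs_le.1 (abs_ham_le hB scl G x)).2
    have : 0 ≤ lam * n * (qn x / n - 1) ^ 2 := by positivity
    linarith
  refine ⟨hle, Integrable.of_bound ?_ (Real.exp (M * B)) (ae_of_all _ fun x => ?_)⟩
  · exact ((measurable_ham_right hf measurable_scl G).sub (by fun_prop)).exp.aestronglyMeasurable
  · rw [Real.norm_eq_abs, Real.abs_exp, Real.exp_le_exp]; exact hle x

theorem pen_low_at (hn : 0 < n) {lam Bc : ℝ} (hlam : 0 ≤ lam) (hBc : 1 + 4 / √(n : ℝ) ≤ Bc)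
    {M : ℕ} (G : Fin M → Fin n → ℝ) :
    Real.exp (lse ((gs n)[|near n (4 / √(n : ℝ))]) (ham f scl G) - 16 * lam - Real.log 2)
      ≤ ∫ x in {x : Fin n → ℝ | qn x ≤ Bc * n},
          Real.exp (ham f scl G x - lam * n * (qn x / n - 1) ^ 2) ∂gs n := by
  have hn' : (0 : ℝ) < n := by exact_mod_cast hn
  obtain ⟨-, hi⟩ := wgt_facts hf hB (n := n) hlam G
  set ε := 4 / √(n : ℝ)
  have hsub : near n ε ⊆ {x : Fin n → ℝ | qn x ≤ Bc * n} := fun x hx => by
    have h : qn x / n ≤ Bc := by linarith [(abs_le.1 (show |qn x / (n : ℝ) - 1| ≤ ε from hx)).2]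
    exact (div_le_iff₀ hn').1 h
  have hH : Integrable (fun x => Real.exp (-(16 * lam)) * Real.exp (ham f scl G x)) (gs n) :=
    (integrable_exp' _ (measurable_ham_right hf measurable_scl G)
      fun x => abs_ham_le hB scl G x).const_mul _
  refine le_trans ?_ (setIntegral_mono_set hi.integrableOn
    (ae_of_all _ fun x => (Real.exp_pos _).le) hsub.eventuallyLE)
  refine le_trans ?_ (setIntegral_mono_on hH.integrableOn hi.integrableOn (measurableSet_near n ε)
    fun x hx => ?_)
  · rw [integral_const_mul, setIntegral_near hf hB hn le_rfl G]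
    have := half_le_near (n := n) hn (le_refl ε)
    set A := lse ((gs n)[|near n ε]) (ham f scl G)
    rw [show A - 16 * lam - Real.log 2 = -(16 * lam) + (A + Real.log (1 / 2)) by
      rw [one_div, Real.log_inv]; ring, Real.exp_add, Real.exp_add, Real.exp_log (by norm_num),
      mul_comm (Real.exp A)]
    gcongr
  · rw [← Real.exp_add, Real.exp_le_exp]
    have h2 : (qn x / n - 1) ^ 2 ≤ ε ^ 2 := by
      rw [← sq_abs]; exact pow_le_pow_left₀ (abs_nonneg _) hx 2
    have h3 : ε ^ 2 = 16 / n := by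
      simp only [ε, div_pow, Real.sq_sqrt hn'.le]; norm_num
    have h4 := mul_le_mul_of_nonneg_left h2 (show 0 ≤ lam * n by positivity)
    rw [h3, show lam * (n : ℝ) * (16 / (n : ℝ)) = 16 * lam by field_simp] at h4
    linarith

theorem pen_up_at (hn : 0 < n) {lam Bc δ : ℝ} (hlam : 0 ≤ lam) (hδ0 : 0 < δ)
    (hδ : 4 / √(n : ℝ) ≤ δ) {M : ℕ} (hbig : 2 * M * B ≤ lam * n * δ ^ 2) (G : Fin M → Fin n → ℝ) :
    ∫ x in {x : Fin n → ℝ | qn x ≤ Bc * n},
        Real.exp (ham f scl G x - lam * n * (qn x / n - 1) ^ 2) ∂gs n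
      ≤ Real.exp (lse ((gs n)[|near n δ]) (ham f scl G) + Real.log 2) := by
  obtain ⟨-, hi⟩ := wgt_facts hf hB (n := n) hlam G
  have hpr := cond_isProbabilityMeasure (near_ne hn hδ)
  have hA : (gs n).real (near n δ) ≤ 1 := measureReal_le_one
  have hA' : (gs n).real (near n δ)ᶜ ≤ 1 := measureReal_le_one
  refine (setIntegral_le_integral hi (ae_of_all _ fun x => (Real.exp_pos _).le)).trans ?_
  rw [← integral_add_compl (measurableSet_near n δ) hi, Real.exp_add, Real.exp_log two_pos,
    mul_two]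
  refine add_le_add ?_ ?_
  · refine (setIntegral_mono_on hi.integrableOn (integrable_exp' _
      (measurable_ham_right hf measurable_scl G) fun x => abs_ham_le hB scl G x).integrableOn
      (measurableSet_near n δ) fun x _ => Real.exp_le_exp.2 (sub_le_self _ (by positivity))).trans ?_
    rw [setIntegral_near hf hB hn hδ G]
    exact mul_le_of_le_one_left (Real.exp_pos _).le hA
  · refine (setIntegral_mono_on hi.integrableOn (integrableOn_const (measure_ne_top _ _))
      (measurableSet_near n δ).compl fun x hx =>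
        show _ ≤ Real.exp (-(M * B)) from Real.exp_le_exp.2 ?_).trans ?_
    · have h1 := (abs_le.1 (abs_ham_le hB scl G x)).2
      have h2 : δ ^ 2 ≤ (qn x / n - 1) ^ 2 := by
        rw [← sq_abs (qn x / (n : ℝ) - 1)]
        exact pow_le_pow_left₀ hδ0.le (not_le.1 (show ¬|qn x / (n : ℝ) - 1| ≤ δ from hx)).le 2
      have := mul_le_mul_of_nonneg_left h2 (show 0 ≤ lam * n by positivity)
      linarith
    · rw [setIntegral_const, smul_eq_mul]
      refine (mul_le_of_le_one_left (Real.exp_pos _).le hA').trans (Real.exp_le_exp.2 ?_)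
      exact (abs_le.1 (abs_lse_le _ (measurable_ham_right hf measurable_scl G)
        fun x => abs_ham_le hB scl G x)).1

theorem integrable_pen (hn : 0 < n) {lam Bc : ℝ} (hlam : 0 ≤ lam)
    (hBc : 1 + 4 / √(n : ℝ) ≤ Bc) (M : ℕ) :
    (∀ G : Fin M → Fin n → ℝ, 0 < ∫ x in {x : Fin n → ℝ | qn x ≤ Bc * n},
        Real.exp (ham f scl G x - lam * n * (qn x / n - 1) ^ 2) ∂gs n) ∧
    Integrable (fun G : Fin M → Fin n → ℝ => Real.log (∫ x in {x : Fin n → ℝ | qn x ≤ Bc * n},
        Real.exp (ham f scl G x - lam * n * (qn x / n - 1) ^ 2) ∂gs n)) (pats n M) := by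
  have hpos := fun G => (Real.exp_pos _).trans_le (pen_low_at (M := M) hf hB hn hlam hBc G)
  refine ⟨hpos, Integrable.of_bound ?_ (M * B + 16 * lam + Real.log 2) (ae_of_all _ fun G => ?_)⟩
  · have hm : Measurable fun p : (Fin M → Fin n → ℝ) × (Fin n → ℝ) =>
        Real.exp (ham f scl p.1 p.2 - lam * n * (qn p.2 / n - 1) ^ 2) :=
      ((measurable_ham hf measurable_scl M).sub (by fun_prop)).exp
    exact (StronglyMeasurable.integral_prod_right'
      (ν := (gs n).restrict {x : Fin n → ℝ | qn x ≤ Bc * n})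
      hm.stronglyMeasurable).measurable.log.aestronglyMeasurable
  · obtain ⟨hle, hi⟩ := wgt_facts hf hB (n := n) hlam G
    have h2 := (Real.le_log_iff_exp_le (hpos G)).2 (pen_low_at hf hB hn hlam hBc G)
    have hp : IsProbabilityMeasure ((gs n)[|near n (4 / √(n : ℝ))]) :=
      cond_isProbabilityMeasure (near_ne hn le_rfl)
    have h3 := (abs_le.1 (abs_lse_le ((gs n)[|near n (4 / √(n : ℝ))])
      (measurable_ham_right hf measurable_scl G) fun x => abs_ham_le hB scl G x)).1
    have h1 : Real.log (∫ x in {x : Fin n → ℝ | qn x ≤ Bc * n},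
        Real.exp (ham f scl G x - lam * n * (qn x / n - 1) ^ 2) ∂gs n) ≤ M * B := by
      rw [Real.log_le_iff_le_exp (hpos G)]
      refine (setIntegral_le_integral hi (ae_of_all _ fun x => (Real.exp_pos _).le)).trans ?_
      refine (integral_mono hi (integrable_const (Real.exp (M * B))) fun x =>
        Real.exp_le_exp.2 (hle x)).trans_eq ?_
      simp
    rw [Real.norm_eq_abs, abs_le]
    constructor <;> linarith [Real.log_pos one_lt_two]

theorem pen_bounds (hn : 0 < n) {lam Bc δ : ℝ} (hlam : 0 ≤ lam) (hδ0 : 0 < δ)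
    (hBc : 1 + 4 / √(n : ℝ) ≤ Bc) (hδ : 4 / √(n : ℝ) ≤ δ) (M : ℕ) :
    F f ((gs n)[|near n (4 / √(n : ℝ))]) scl M - 16 * lam - Real.log 2 ≤ pen f lam Bc n M ∧
    (2 * M * B ≤ lam * n * δ ^ 2 →
      pen f lam Bc n M ≤ F f ((gs n)[|near n δ]) scl M + Real.log 2) := by
  obtain ⟨hpos, hint⟩ := integrable_pen hf hB hn hlam hBc M
  constructor
  · have hpn : IsProbabilityMeasure ((gs n)[|near n (4 / √(n : ℝ))]) :=
      cond_isProbabilityMeasure (near_ne hn le_rfl)
    have hF := integrable_F hf hB ((gs n)[|near n (4 / √(n : ℝ))]) measurable_scl M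
    have h := integral_mono (hF.sub (integrable_const (16 * lam + Real.log 2))) hint fun G =>
      (Real.le_log_iff_exp_le (hpos G)).2
        (by simpa [sub_sub] using pen_low_at (M := M) hf hB hn hlam hBc G)
    rw [integral_sub' hF (integrable_const _)] at h
    simp only [integral_const, probReal_univ, one_smul] at h
    unfold F pen
    linarith
  · intro hbig
    have hp := cond_isProbabilityMeasure (near_ne hn hδ)
    have hF := integrable_F hf hB ((gs n)[|near n δ]) measurable_scl M
    have h := integral_mono hint (hF.add (integrable_const (Real.log 2))) fun G =>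
      (Real.log_le_iff_le_exp (hpos G)).2 (pen_up_at hf hB hn hlam hδ0 hδ hbig G)
    rw [integral_add' hF (integrable_const _)] at h
    simp only [integral_const, probReal_univ, one_smul] at h
    unfold F pen
    linarith

/-- The pressure on the sphere converges to the common limit of the penalised pressures. -/
theorem tendsto_spr_of_pen (hL : ∀ x y, |f x - f y| ≤ L * |x - y|) (hL0 : 0 ≤ L) {α : ℝ}
    (hα : 0 ≤ α) {Bc ℓ : ℝ} (hBc : 1 < Bc)
    (hEng : ∀ η > (0 : ℝ), ∃ lam0 : ℝ, ∀ lam ≥ lam0,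
      ∀ᶠ N : ℕ in atTop, |pen f lam Bc N ⌊α * N⌋₊ / N - ℓ| ≤ η) :
    Tendsto (fun N : ℕ => spr f N ⌊α * N⌋₊ / N) atTop (𝓝 ℓ) := by
  refine Metric.tendsto_nhds.2 fun e he => ?_
  have hB0 : 0 ≤ B := (abs_nonneg _).trans (hB 0)
  set C := α * (Real.exp (2 * B) * L)
  have hC : 0 ≤ C := by positivity
  set δ := e / (8 * (C + 1))
  have hδ : 0 < δ := by positivity
  obtain ⟨lam0, h0⟩ := hEng (e / 4) (by linarith)
  set lam := max (max lam0 0) (2 * α * B / δ ^ 2)
  have hlam : 0 ≤ lam := le_max_of_le_left (le_max_right _ _)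
  have hs : Tendsto (fun N : ℕ => 4 / √(N : ℝ)) atTop (𝓝 0) :=
    (tendsto_sqrt_atTop.comp tendsto_natCast_atTop_atTop).const_div_atTop 4
  have hc : Tendsto (fun N : ℕ => (16 * lam + Real.log 2) / (N : ℝ)) atTop (𝓝 0) :=
    tendsto_natCast_atTop_atTop.const_div_atTop _
  filter_upwards [h0 lam (le_max_of_le_left (le_max_left _ _)), eventually_gt_atTop 0,
    hs.eventually_le_const hδ, hs.eventually_le_const (sub_pos.2 hBc),
    hc.eventually_le_const (show (0 : ℝ) < e / 4 by linarith)] with N hN hN0 hd hb hcN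
  have hN' : (0 : ℝ) < N := by exact_mod_cast hN0
  have hM : (⌊α * (N : ℝ)⌋₊ : ℝ) ≤ α * N := Nat.floor_le (by positivity)
  have hp := pen_bounds hf hB hN0 hlam hδ (by linarith : 1 + 4 / √(N : ℝ) ≤ Bc) hd ⌊α * N⌋₊
  have hbig : 2 * (⌊α * (N : ℝ)⌋₊ : ℝ) * B ≤ lam * N * δ ^ 2 := by
    have h1 : 2 * α * B / δ ^ 2 ≤ lam := le_max_right _ _
    rw [div_le_iff₀ (by positivity)] at h1
    nlinarith [mul_le_mul_of_nonneg_left hM hB0]
  have hcmp : ∀ d, 0 < d → 4 / √(N : ℝ) ≤ d → d ≤ δ →
      |F f ((gs N)[|near N d]) scl ⌊α * N⌋₊ - spr f N ⌊α * N⌋₊| ≤ e / 8 * N := fun d d0 d1 d2 => by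
    refine (F_near_scl hf hB hL hL0 hN0 d0 d1 _).trans ?_
    calc (⌊α * (N : ℝ)⌋₊ : ℝ) * (Real.exp (2 * B) * L * d)
        ≤ α * N * (Real.exp (2 * B) * L * δ) := mul_le_mul hM (by gcongr) (by positivity) (by positivity)
      _ = C * δ * N := by simp only [C]; ring
      _ ≤ e / 8 * N := by
          refine mul_le_mul_of_nonneg_right ?_ hN'.le
          calc C * δ ≤ (C + 1) * δ := by nlinarith
            _ = e / 8 := by simp only [δ]; field_simp
  have a1 := abs_le.1 (hcmp _ (by positivity) le_rfl hd)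
  have a2 := abs_le.1 (hcmp δ hδ hd le_rfl)
  have b2 := hp.2 hbig
  rw [div_le_iff₀ hN'] at hcN
  rw [div_sub' hN'.ne', abs_div, abs_of_pos hN', div_le_iff₀ hN', abs_le] at hN
  rw [Real.dist_eq, div_sub' hN'.ne', abs_div, abs_of_pos hN', div_lt_iff₀ hN', abs_lt]
  have := mul_pos he hN'
  constructor <;> linarith [hp.1, Real.log_pos one_lt_two]

end Vale.Agent.P157.Sphere
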