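import Vale.Agent.P157.Sphere.Super
import Vale.Agent.P157.Sphere.Radial

/-!
Near superadditivity of the pressure of the spherical perceptron.
-/

open MeasureTheory ProbabilityTheory Filter Topology Real Set

namespace Vale.Agent.P157.Sphere

variable {n : ℕ} {S : Type*} [MeasurableSpace S]

/-- Second moment of a field. -/
theorem dot_sq (v : Fin n → ℝ) :
    Integrable (fun g => dot g v ^ 2) (gs n) ∧ ∫ g, dot g v ^ 2 ∂gs n = qn v := by
  have h0 : ∀ i : Fin n, MemLp (fun x : ℝ => x * v i) 2 (gaussianReal 0 1) := fun i =>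
    ((memLp_id_gaussianReal' 2 (by norm_num)).mul_const (v i)).congr_norm (by fun_prop) (by simp)
  have hm : ∀ i : Fin n, MemLp (fun g : Fin n → ℝ => g i * v i) 2 (gs n) := fun i =>
    (h0 i).comp_measurePreserving (measurePreserving_eval (fun _ : Fin n => gaussianReal 0 1) i)
  have hd : MemLp (fun g => dot g v) 2 (gs n) := memLp_finsetSum _ fun i _ => hm i
  have hmean : ∫ g, dot g v ∂gs n = 0 := by
    unfold dot
    rw [integral_finsetSum _ fun i _ => (hm i).integrable (by norm_num)]
    refine Finset.sum_eq_zero fun i _ => ?_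
    rw [gs, integral_comp_eval (μ := fun _ : Fin n => gaussianReal 0 1) (f := fun x : ℝ => x * v i) (by fun_prop), integral_mul_const]
    simp
  refine ⟨hd.integrable_sq, ?_⟩
  rw [← variance_of_integral_eq_zero hd.1.aemeasurable hmean]
  have := variance_sum_pi (μ := fun _ : Fin n => gaussianReal 0 1) (X := fun i x => x * v i) h0
  have hv : ∀ i : Fin n, Var[fun x : ℝ => x * v i; gaussianReal 0 1] = v i ^ 2 := fun i => by
    rw [variance_mul_const, variance_fun_id_gaussianReal]
    simp
  simp only [hv] at this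
  rw [qn, ← this]
  congr 1
  ext g; simp [dot]

theorem abs_dot_le {v : Fin n → ℝ} {τ : ℝ} (hτ : 0 < τ) (h : qn v ≤ τ ^ 2) :
    ∫ g, |dot g v| ∂gs n ≤ τ := by
  obtain ⟨hi, he⟩ := dot_sq v
  calc ∫ g, |dot g v| ∂gs n ≤ ∫ g, (dot g v ^ 2 / (2 * τ) + τ / 2) ∂gs n := by
        refine integral_mono_of_nonneg (ae_of_all _ fun g => abs_nonneg _)
          ((hi.div_const _).add (integrable_const _)) (ae_of_all _ fun g => ?_)
        dsimp only
        rw [div_add_div _ _ (by positivity) (by norm_num), le_div_iff₀ (by positivity)]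
        nlinarith [sq_nonneg (|dot g v| - τ), sq_abs (dot g v)]
    _ = qn v / (2 * τ) + τ / 2 := by
        rw [integral_add (hi.div_const _) (integrable_const _), integral_div, he]; simp
    _ ≤ τ := by
        rw [div_add_div _ _ (by positivity) (by norm_num), div_le_iff₀ (by positivity)]
        nlinarith

variable {f : ℝ → ℝ} {B L τ : ℝ} (hf : Measurable f) (hB : ∀ x, |f x| ≤ B)

theorem exp_lip {x y : ℝ} (hx : x ≤ B) (hy : y ≤ B) :
    |Real.exp x - Real.exp y| ≤ Real.exp B * |x - y| := by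
  wlog h : y ≤ x generalizing x y
  · rw [abs_sub_comm (Real.exp x), abs_sub_comm x]; exact this hy hx (le_of_not_ge h)
  have h1 := Real.add_one_le_exp (y - x)
  have h2 := Real.exp_le_exp.2 hx
  have h4 : Real.exp y = Real.exp x * Real.exp (y - x) := by rw [← Real.exp_add]; ring_nf
  rw [abs_of_nonneg (sub_nonneg.2 (Real.exp_le_exp.2 h)), abs_of_nonneg (sub_nonneg.2 h), h4]
  nlinarith [Real.exp_pos x, mul_le_mul_of_nonneg_left h1 (Real.exp_pos x).le,
    mul_le_mul_of_nonneg_right h2 (sub_nonneg.2 h)]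

theorem lse_lip (ν : Measure S) [IsProbabilityMeasure ν] {φ ψ : S → ℝ} (hφ : Measurable φ)
    (hψ : Measurable ψ) (h1 : ∀ s, |φ s| ≤ B) (h2 : ∀ s, |ψ s| ≤ B) :
    |lse ν φ - lse ν ψ| ≤ Real.exp (2 * B) * ∫ s, |φ s - ψ s| ∂ν := by
  have hd : Integrable (fun s => |φ s - ψ s|) ν :=
    Integrable.of_bound (hφ.sub hψ).norm.aestronglyMeasurable (2 * B) (ae_of_all _ fun s => by
      rw [Real.norm_eq_abs, abs_abs]; linarith [abs_sub (φ s) (ψ s), h1 s, h2 s])
  set P := ∫ s, Real.exp (φ s) ∂ν
  set Q := ∫ s, Real.exp (ψ s) ∂ν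
  have hP := exp_le_integral ν hφ h1
  have hQ := exp_le_integral ν hψ h2
  have hPQ : |P - Q| ≤ Real.exp B * ∫ s, |φ s - ψ s| ∂ν := by
    rw [← integral_sub (integrable_exp' ν hφ h1) (integrable_exp' ν hψ h2), ← integral_const_mul]
    exact abs_integral_le_integral_abs.trans (integral_mono_of_nonneg (ae_of_all _ fun s => abs_nonneg _)
      (hd.const_mul _) (ae_of_all _ fun s => exp_lip (abs_le.1 (h1 s)).2 (abs_le.1 (h2 s)).2))
  have key : ∀ u v : ℝ, Real.exp (-B) ≤ u → Real.exp (-B) ≤ v →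
      Real.log u - Real.log v ≤ Real.exp B * |u - v| := fun u v hu hv => by
    have hu0 := lt_of_lt_of_le (Real.exp_pos _) hu
    have hv0 := lt_of_lt_of_le (Real.exp_pos _) hv
    have hB0 := (Real.log_le_sub_one_of_pos (div_pos hu0 hv0))
    rw [Real.log_div hu0.ne' hv0.ne'] at hB0
    refine hB0.trans ?_
    calc u / v - 1 = (u - v) / v := by field_simp
      _ ≤ |u - v| / v := div_le_div_of_nonneg_right (le_abs_self _) hv0.le
      _ ≤ |u - v| / Real.exp (-B) := div_le_div_of_nonneg_left (abs_nonneg _) (Real.exp_pos _) hv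
      _ = _ := by rw [Real.exp_neg, div_inv_eq_mul, mul_comm]
  have k1 := key P Q hP hQ
  have k2 := key Q P hQ hP
  rw [abs_sub_comm Q P] at k2
  rw [two_mul, Real.exp_add, mul_assoc]
  exact (abs_le.2 ⟨by unfold lse; linarith, by unfold lse; linarith⟩).trans
    (mul_le_mul_of_nonneg_left hPQ (Real.exp_pos _).le)

include hf hB in
/-- Close configurations give close one-pattern gains. -/
theorem gain_stab (hL : ∀ x y, |f x - f y| ≤ L * |x - y|) (hL0 : 0 ≤ L) (hτ : 0 < τ)
    {w w' : S → Fin n → ℝ} (hw : Measurable w) (hw' : Measurable w')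
    (hd : ∀ s, qn (w s - w' s) ≤ τ ^ 2) (ν : Measure S) [IsProbabilityMeasure ν] :
    |∫ g, gain f ν w g ∂gs n - ∫ g, gain f ν w' g ∂gs n| ≤ Real.exp (2 * B) * L * τ := by
  have hB0 : 0 ≤ B := (abs_nonneg _).trans (hB 0)
  have hi : ∀ v : S → Fin n → ℝ, Measurable v → Integrable (fun g => gain f ν v g) (gs n) := fun v hv =>
    Integrable.of_bound (measurable_lse ν (φ := fun q : (Fin n → ℝ) × S => f (dot q.1 (v q.2)))
      (by unfold dot; fun_prop)).aestronglyMeasurable B (ae_of_all _ fun g => by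
        rw [Real.norm_eq_abs]; exact abs_lse_le ν (measurable_pot hf hv g) fun s => hB _)
  set Φ : (Fin n → ℝ) × S → ℝ := fun q => |f (dot q.1 (w q.2)) - f (dot q.1 (w' q.2))|
  have hΦ : Integrable Φ ((gs n).prod ν) := by
    refine Integrable.of_bound (Measurable.aestronglyMeasurable ?_) (2 * B) (ae_of_all _ fun q => ?_)
    · exact ((hf.comp (by unfold dot; fun_prop)).sub (hf.comp (by unfold dot; fun_prop))).norm
    · simp only [Φ, Real.norm_eq_abs, abs_abs]
      linarith [abs_sub (f (dot q.1 (w q.2))) (f (dot q.1 (w' q.2))), hB (dot q.1 (w q.2)), hB (dot q.1 (w' q.2))]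
  rw [← integral_sub (hi w hw) (hi w' hw'), mul_assoc]
  refine abs_integral_le_integral_abs.trans (le_trans (integral_mono_of_nonneg
    (ae_of_all _ fun g => abs_nonneg _) (hΦ.integral_prod_left.const_mul (Real.exp (2 * B))) (ae_of_all _ fun g => ?_)) ?_)
  · exact lse_lip ν (measurable_pot hf hw g) (measurable_pot hf hw' g) (fun s => hB _) fun s => hB _
  rw [integral_const_mul]
  refine mul_le_mul_of_nonneg_left ?_ (Real.exp_pos _).le
  rw [integral_integral_swap (f := fun g s => Φ (g, s)) hΦ]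
  refine (integral_mono hΦ.integral_prod_right (integrable_const (L * τ)) fun s => ?_).trans_eq (by simp)
  have hlin : ∀ g, dot g (w s) - dot g (w' s) = dot g (w s - w' s) := fun g => by
    simp [dot, mul_sub, Finset.sum_sub_distrib]
  calc ∫ g, Φ (g, s) ∂gs n ≤ ∫ g, L * |dot g (w s - w' s)| ∂gs n := by
        refine integral_mono_of_nonneg (ae_of_all _ fun g => abs_nonneg _) ?_ (ae_of_all _ fun g => ?_)
        · refine (Integrable.mono' (((dot_sq (w s - w' s)).1.add (integrable_const 1)))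
            (Measurable.aestronglyMeasurable (Measurable.norm (f := fun g : Fin n → ℝ => dot g (w s - w' s))
              (by unfold dot; fun_prop))) (ae_of_all _ fun g => ?_)).const_mul L
          simp only [Real.norm_eq_abs, abs_abs, Pi.add_apply]
          nlinarith [sq_nonneg (|dot g (w s - w' s)| - 1), sq_abs (dot g (w s - w' s)),
            abs_nonneg (dot g (w s - w' s))]
        · simp only [Φ, ← hlin]; exact hL _ _
    _ ≤ L * τ := by rw [integral_const_mul]; exact mul_le_mul_of_nonneg_left (abs_dot_le hτ (hd s)) hL0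

/-- Configurations agreeing almost surely give the same pressure. -/
theorem F_congr (μ : Measure S) {w w' : S → Fin n → ℝ} (h : w =ᵐ[μ] w') (M : ℕ) :
    F f μ w M = F f μ w' M := by
  unfold F lse
  refine integral_congr_ae (ae_of_all _ fun G => ?_)
  refine congrArg Real.log (integral_congr_ae ?_)
  filter_upwards [h] with s hs
  simp only [ham, hs]

theorem map_append_gs (a b : ℕ) :
    ((gs a).prod (gs b)).map (fun p => Fin.append p.1 p.2) = gs (a + b) := by
  symm
  refine Measure.pi_eq fun s hs => ?_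
  rw [Measure.map_apply (measurable_append (by fun_prop) (by fun_prop)) (MeasurableSet.univ_pi hs)]
  have : (fun p : (Fin a → ℝ) × (Fin b → ℝ) => Fin.append p.1 p.2) ⁻¹' Set.univ.pi s
      = (Set.univ.pi fun i => s (Fin.castAdd b i)) ×ˢ (Set.univ.pi fun j => s (Fin.natAdd a j)) := by
    ext p
    simp only [Set.mem_preimage, Set.mem_univ_pi, Set.mem_prod]
    refine ⟨fun h => ⟨fun i => by simpa using h (Fin.castAdd b i), fun j => by simpa using h (Fin.natAdd a j)⟩,
      fun h i => ?_⟩
    induction i using Fin.addCases with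
    | left i => simpa using h.1 i
    | right j => simpa using h.2 j
  rw [this, Measure.prod_prod, gs, gs, Measure.pi_pi, Measure.pi_pi, Fin.prod_univ_add]

/-- `n ↦ n ^ (3/4)`. -/
noncomputable def h34 (x : ℝ) : ℝ := √x * √√x

/-- Expected log partition function on the sphere. -/
noncomputable def spr (f : ℝ → ℝ) (n M : ℕ) : ℝ := F f (gs n) dir M

/-- The good event. -/
def shell (n : ℕ) : Set (Fin n → ℝ) := {g | |qn g - n| ≤ 4 * √n}

theorem geom {a b : ℕ} (ha : 0 < a) (hb : 0 < b) {x : Fin a → ℝ} {y : Fin b → ℝ} (hx : x ∈ shell a)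
    (hy : y ∈ shell b) :
    qn (dir (Fin.append x y) - joint ((a : ℝ) / (a + b)) ((b : ℝ) / (a + b)) dir dir (x, y))
      ≤ 24 / √((a : ℝ) + b) := by
  have ha' : (0 : ℝ) < a := by exact_mod_cast ha
  have hb' : (0 : ℝ) < b := by exact_mod_cast hb
  set n : ℝ := (a : ℝ) + b
  have hn : 0 < n := by positivity
  set p := qn x
  set r := qn y
  have hp : 0 ≤ p := Finset.sum_nonneg fun i _ => sq_nonneg _
  have hr : 0 ≤ r := Finset.sum_nonneg fun i _ => sq_nonneg _
  have hq : qn (Fin.append x y) = p + r := by simp [qn, Fin.sum_univ_add, p, r]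
  have comp : ∀ {m : ℕ} (z : Fin m → ℝ) (t : ℝ), 0 ≤ t → ∀ i,
      z i / √(qn z + t) = √(qn z / (qn z + t)) * dir z i := fun {m} z t ht i => by
    have hz : 0 ≤ qn z := Finset.sum_nonneg fun i _ => sq_nonneg _
    rcases hz.eq_or_lt with h0 | h0
    · have : z i = 0 := pow_eq_zero_iff two_ne_zero |>.1
        ((Finset.sum_eq_zero_iff_of_nonneg fun j _ => sq_nonneg (z j)).1 h0.symm i (Finset.mem_univ i))
      simp [dir, this]
    · rw [dir, Real.sqrt_div hz]
      have := (Real.sqrt_pos.2 h0).ne'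
      field_simp
  set R := p / (p + r)
  set c := (a : ℝ) / n
  set R' := r / (p + r)
  set d := (b : ℝ) / n
  have e : qn (dir (Fin.append x y) - joint c d dir dir (x, y))
      = (√R - √c) ^ 2 * qn (dir x) + (√R' - √d) ^ 2 * qn (dir y) := by
    conv_lhs => rw [qn, Fin.sum_univ_add]
    simp only [qn, Pi.sub_apply, joint, Fin.append_left, Fin.append_right, Finset.mul_sum]
    congr 1 <;> refine Finset.sum_congr rfl fun i _ => ?_
    · rw [show dir (Fin.append x y) (Fin.castAdd b i) = x i / √(p + r) by simp [dir, hq],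
        comp x r hr i]
      simp only [R, p]; ring
    · rw [show dir (Fin.append x y) (Fin.natAdd a i) = y i / √(r + p) by simp [dir, hq, add_comm],
        comp y p hp i]
      simp only [R', r, p]; rw [add_comm (qn x) (qn y)]; ring
  have hsq : ∀ u v : ℝ, 0 ≤ u → 0 ≤ v → (√u - √v) ^ 2 ≤ |u - v| := fun u v hu hv => by
    have h1 := Real.sq_sqrt hu
    have h2 := Real.sq_sqrt hv
    rcases le_total v u with h | h
    · rw [abs_of_nonneg (by linarith)]
      nlinarith [Real.sqrt_le_sqrt h, Real.sqrt_nonneg v]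
    · rw [abs_of_nonpos (by linarith)]
      nlinarith [Real.sqrt_le_sqrt h, Real.sqrt_nonneg u]
  have hbd : ∀ (p r A B : ℝ), 0 ≤ p → 0 ≤ r → 0 < A → 0 < B → A + B = n →
      |p - A| ≤ 4 * √A → |r - B| ≤ 4 * √B → |p / (p + r) - A / n| ≤ 12 / √n := by
    intro p r A B hp hr hA hB hAB hpA hrB
    have hs := Real.sq_sqrt hn.le
    have hs0 := Real.sqrt_pos.2 hn
    have hR1 : p / (p + r) ≤ 1 := div_le_one_of_le₀ (by linarith) (by linarith)
    have hR0 : 0 ≤ p / (p + r) := by positivity
    have hc1 : A / n ≤ 1 := div_le_one_of_le₀ (by linarith) hn.le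
    have hc0 : 0 ≤ A / n := by positivity
    rcases le_or_gt √n 12 with hN | hN
    · exact (abs_le.2 ⟨by linarith, by linarith⟩ : _ ≤ (1 : ℝ)).trans ((one_le_div hs0).2 hN)
    have hsum : √A + √B ≤ 3 / 2 * √n := by
      nlinarith [Real.sq_sqrt hA.le, Real.sq_sqrt hB.le, sq_nonneg (√A - √B), Real.sqrt_nonneg A,
        Real.sqrt_nonneg B]
    obtain ⟨p1, p2⟩ := abs_le.1 hpA
    obtain ⟨r1, r2⟩ := abs_le.1 hrB
    have hq2 : n / 2 ≤ p + r := by nlinarith
    have hq0 : 0 < p + r := by linarith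
    rw [div_sub_div _ _ hq0.ne' hn.ne', abs_div, abs_of_pos (by positivity : 0 < (p + r) * n),
      div_le_div_iff₀ (by positivity) hs0]
    have hnum : |p * n - (p + r) * A| ≤ 6 * (n * √n) := by
      rw [show p * n - (p + r) * A = (p - A) * B - (r - B) * A by rw [← hAB]; ring]
      refine (abs_sub _ _).trans ?_
      rw [abs_mul, abs_mul, abs_of_pos hA, abs_of_pos hB]
      have u1 := mul_le_mul hpA (show B ≤ n by linarith) hB.le (by positivity)
      have u2 := mul_le_mul hrB (show A ≤ n by linarith) hA.le (by positivity)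
      nlinarith
    calc |p * n - (p + r) * A| * √n ≤ 6 * (n * √n) * √n := mul_le_mul_of_nonneg_right hnum hs0.le
      _ = 12 * (n / 2 * n) := by linear_combination 6 * n * hs
      _ ≤ 12 * ((p + r) * n) := by gcongr
  rw [e]
  have h1 : (√R - √c) ^ 2 * qn (dir x) ≤ 12 / √n :=
    (mul_le_of_le_one_right (sq_nonneg _) (qn_dir_le x)).trans
      ((hsq R c (by positivity) (by positivity)).trans (hbd p r a b hp hr ha' hb' rfl hx hy))
  have h2 : (√R' - √d) ^ 2 * qn (dir y) ≤ 12 / √n :=
    (mul_le_of_le_one_right (sq_nonneg _) (qn_dir_le y)).trans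
      ((hsq R' d (by positivity) (by positivity)).trans (by
        have := hbd r p b a hr hp hb' ha' (add_comm _ _) hy hx
        simpa only [R', d, add_comm r p] using this))
  rw [show (24 : ℝ) / √n = 12 / √n + 12 / √n by ring]
  exact add_le_add h1 h2

/-- The one-pattern property of a potential, for every configuration measure. -/
def OnePatM (f : ℝ → ℝ) : Prop :=
  ∀ (a b : ℕ), 0 < a → 0 < b → ∀ ν : Measure ((Fin a → ℝ) × (Fin b → ℝ)), IsProbabilityMeasure ν →
    (a : ℝ) / (a + b) * ∫ g, gain f ν (partL dir b) g ∂gs (a + b)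
      + (b : ℝ) / (a + b) * ∫ g, gain f ν (partR a dir) g ∂gs (a + b)
      ≤ ∫ g, gain f ν (joint ((a : ℝ) / (a + b)) ((b : ℝ) / (a + b)) dir dir) g ∂gs (a + b)

theorem onePatM_of_cosT (ρ : Measure ℝ) [IsFiniteMeasure ρ] (hρ : ρ.real Set.univ < 1) (κ : ℝ)
    (hfc : ∀ x, f x = κ + Real.log (1 - cosT ρ x)) : OnePatM f := by
  intro a b ha hb ν hν
  have hc : 0 ≤ (a : ℝ) / (a + b) := by positivity
  have hd : 0 ≤ (b : ℝ) / (a + b) := by positivity
  refine one_pattern ρ ν hρ κ hfc (measurable_joint measurable_dir measurable_dir _ _)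
    (measurable_partL measurable_dir) (measurable_partR measurable_dir) hc hd ?_ fun m t s => ?_
  · rw [← add_div, div_self]; positivity
  · have e : ∀ (k : ℝ) (z : Fin m → ℝ), 0 ≤ k → (∑ l, t l * (√k * z l)) ^ 2 = k * (∑ l, t l * z l) ^ 2 :=
      fun k z hk => by
        simp only [mul_left_comm _ (√k)]
        rw [← Finset.mul_sum, mul_pow, Real.sq_sqrt hk]
    simp only [joint, partL, partR, Fin.sum_univ_add, Fin.append_left, Fin.append_right,
      Pi.zero_apply, mul_zero, Finset.sum_const_zero, ne_eq, OfNat.ofNat_ne_zero, not_false_eq_true,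
      zero_pow, zero_add, add_zero, e _ _ hc, e _ _ hd, ← Finset.mul_sum]

variable {α : ℝ}

include hf hB in
/-- The sphere against two independent spheres of the expected radii. -/
theorem compare_split (hL : ∀ x y, |f x - f y| ≤ L * |x - y|) (hL0 : 0 ≤ L)
    {a b : ℕ} (ha : 0 < a) (hb : 0 < b) (M : ℕ) :
    F f ((gs a).prod (gs b)) (joint ((a : ℝ) / (a + b)) ((b : ℝ) / (a + b)) dir dir) M
      - M * (Real.exp (2 * B) * L * (5 / √√((a : ℝ) + b))) - 3 ≤ spr f (a + b) M := by
  set c := (a : ℝ) / (a + b)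
  set d := (b : ℝ) / (a + b)
  -- the event
  set μ := (gs a).prod (gs b)
  set A := shell a ×ˢ shell b
  have hAm : ∀ k, MeasurableSet (shell k) := fun k =>
    measurableSet_le ((measurable_qn.sub_const _).norm) measurable_const
  have hA : MeasurableSet A := (hAm a).prod (hAm b)
  have hPa : 1 / 2 ≤ (gs a).real (shell a) := qn_concentration a
  have hPb : 1 / 2 ≤ (gs b).real (shell b) := qn_concentration b
  have hPA : 1 / 4 ≤ μ.real A := by
    rw [measureReal_def, Measure.prod_prod, ENNReal.toReal_mul]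
    nlinarith [show (gs a).real (shell a) = (gs a (shell a)).toReal from rfl,
      show (gs b).real (shell b) = (gs b (shell b)).toReal from rfl]
  have h0 : ∀ k, 1 / 2 ≤ (gs k).real (shell k) → gs k (shell k) ≠ 0 := fun k hk h => by
    simp [measureReal_def, h] at hk; linarith
  have hpa : IsProbabilityMeasure ((gs a)[|shell a]) := cond_isProbabilityMeasure (h0 a hPa)
  have hpb : IsProbabilityMeasure ((gs b)[|shell b]) := cond_isProbabilityMeasure (h0 b hPb)
  set ν := ((gs a)[|shell a]).prod ((gs b)[|shell b])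
  have hν : ν = (μ A)⁻¹ • μ.restrict A := by
    refine Measure.prod_eq fun s t hs ht => ?_
    rw [Measure.smul_apply, smul_eq_mul, Measure.restrict_apply (hs.prod ht), Set.prod_inter_prod,
      Measure.prod_prod, Measure.prod_prod, cond_apply (hAm a), cond_apply (hAm b),
      ENNReal.mul_inv (Or.inl (h0 a hPa)) (Or.inr (h0 b hPb)), Set.inter_comm s, Set.inter_comm t]
    ring
  -- configurations
  set w : (Fin a → ℝ) × (Fin b → ℝ) → Fin (a + b) → ℝ := fun p => dir (Fin.append p.1 p.2)
  set w0 := joint c d (dir (n := a)) (dir (n := b))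
  have hw0 : Measurable w0 := measurable_joint measurable_dir measurable_dir c d
  have hw : Measurable w := measurable_dir.comp (measurable_append (by fun_prop) (by fun_prop))
  classical
  have hw' : Measurable (A.piecewise w w0) := hw.piecewise hA hw0
  set τ := 5 / √√((a : ℝ) + b)
  have hn0 : (0 : ℝ) < (a : ℝ) + b := by positivity
  have hτ : 0 < τ := by positivity
  have hclose : ∀ p, qn (A.piecewise w w0 p - w0 p) ≤ τ ^ 2 := fun p => by
    by_cases hp : p ∈ A
    · rw [Set.piecewise_eq_of_mem _ _ _ hp]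
      refine (geom ha hb hp.1 hp.2).trans ?_
      rw [div_pow, Real.sq_sqrt (Real.sqrt_nonneg _)]
      gcongr; norm_num
    · rw [Set.piecewise_eq_of_notMem _ _ _ hp]
      simpa [qn] using sq_nonneg τ
  -- the chain of comparisons
  have s1 : F f ν w M + Real.log (μ.real A) ≤ spr f (a + b) M := by
    rw [spr, ← map_append_gs a b, F_map hf μ (measurable_append (by fun_prop) (by fun_prop)) measurable_dir]
    exact F_restrict hf hB μ hw hA (by linarith) M ν hν
  have s2 : |F f ν w M - F f ν w0 M| ≤ M * (Real.exp (2 * B) * L * τ) := by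
    rw [F_congr ν (w := w) (w' := A.piecewise w w0) ?_]
    · exact F_compare hf hB hw' hw0
        (fun ν' hν' => gain_stab hf hB hL hL0 hτ hw' hw0 hclose ν') M ν inferInstance
    · have : ∀ᵐ p ∂ν, p ∈ A := by
        rw [hν]
        exact Measure.ae_smul_measure (ae_restrict_mem hA) _
      filter_upwards [this] with p hp
      rw [Set.piecewise_eq_of_mem _ _ _ hp]
  have hmap : ∀ k, 0 < k → 1 / 2 ≤ (gs k).real (shell k) →
      ((gs k)[|shell k]).map dir = (gs k).map dir := fun k hk hP => by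
    refine Measure.ext fun s hs => ?_
    rw [Measure.map_apply measurable_dir hs, Measure.map_apply measurable_dir hs, cond_apply (hAm k),
      show shell k = qn ⁻¹' {x : ℝ | |x - k| ≤ 4 * √k} from rfl, Set.inter_comm,
      (polar_norm hk).1 s _ hs (measurableSet_le (by fun_prop) measurable_const)]
    have hne : gs k (qn ⁻¹' {x : ℝ | |x - k| ≤ 4 * √k}) ≠ 0 := h0 k hP
    rw [mul_comm (gs k (dir ⁻¹' s)), ← mul_assoc, ENNReal.inv_mul_cancel hne (measure_ne_top _ _),
      one_mul]
  have s3 : F f ν w0 M = F f μ w0 M := by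
    have hP : Measurable (Prod.map (dir (n := a)) (dir (n := b))) := measurable_dir.prodMap measurable_dir
    have hj : Measurable (joint c d (id : (Fin a → ℝ) → _) (id : (Fin b → ℝ) → _)) :=
      measurable_joint measurable_id measurable_id c d
    have e : ∀ μ' : Measure ((Fin a → ℝ) × (Fin b → ℝ)),
        F f μ' w0 M = F f (μ'.map (Prod.map dir dir)) (joint c d id id) M := fun μ' =>
      (F_map hf μ' hP hj M).symm
    rw [e, e]
    simp only [ν, μ]
    rw [← Measure.map_prod_map _ _ measurable_dir measurable_dir,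
      ← Measure.map_prod_map _ _ measurable_dir measurable_dir, hmap a ha hPa, hmap b hb hPb]
  have hlog : -3 ≤ Real.log (μ.real A) := by
    refine le_trans ?_ (Real.log_le_log (by norm_num) hPA)
    rw [one_div, Real.log_inv, neg_le_neg_iff]
    exact (Real.log_le_sub_one_of_pos (by norm_num)).trans (by norm_num)
  have hs2 := (abs_le.1 s2).1
  rw [← s3]
  linarith

omit hf hB in
/-- The error of the binomial mixture. -/
theorem mix_error (hα : 0 < α) {a b : ℕ} (ha : 0 < a) (hb : 0 < b) :
    let M : ℝ := (⌊α * ((a + b : ℕ) : ℝ)⌋₊ : ℝ)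
    let T := √(min a b : ℝ)
    ((M * ((a : ℝ) / (a + b)) - (⌊α * (a : ℝ)⌋₊ : ℝ)) ^ 2
        + M * ((a : ℝ) / (a + b)) * ((b : ℝ) / (a + b))) / T + T
      + |M - (⌊α * (a : ℝ)⌋₊ : ℝ) - (⌊α * (b : ℝ)⌋₊ : ℝ)| ≤ (α + 5) * T := by
  intro M T
  have ha' : (0 : ℝ) < a := by exact_mod_cast ha
  have hb' : (0 : ℝ) < b := by exact_mod_cast hb
  have hT1 : 1 ≤ T := Real.one_le_sqrt.2 (le_min (by exact_mod_cast ha) (by exact_mod_cast hb))
  have hMa := Nat.floor_le (show 0 ≤ α * (a : ℝ) by positivity)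
  have hMa' := Nat.lt_floor_add_one (α * (a : ℝ))
  have hMb := Nat.floor_le (show 0 ≤ α * (b : ℝ) by positivity)
  have hMb' := Nat.lt_floor_add_one (α * (b : ℝ))
  have hM : M ≤ α * (a + b) :=
    (Nat.floor_le (show 0 ≤ α * ((a + b : ℕ) : ℝ) by positivity)).trans_eq (by push_cast; ring)
  have hM' : α * (a + b) < M + 1 :=
    (Nat.lt_floor_add_one (α * ((a + b : ℕ) : ℝ))).trans_le' (le_of_eq (by push_cast; ring))
  have hM0 : 0 ≤ M := Nat.cast_nonneg _
  set c := (a : ℝ) / (a + b)
  set d := (b : ℝ) / (a + b)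
  set m := (⌊α * (a : ℝ)⌋₊ : ℝ)
  set m' := (⌊α * (b : ℝ)⌋₊ : ℝ)
  have hc : 0 ≤ c := by positivity
  have hd : 0 ≤ d := by positivity
  have hc1 : c ≤ 1 := div_le_one_of_le₀ (by linarith) (by positivity)
  have hd1 : d ≤ 1 := div_le_one_of_le₀ (by linarith) (by positivity)
  have hca : α * (a + b) * c = α * a := by simp only [c]; field_simp
  have hdb : α * (a + b) * d = α * b := by simp only [d]; field_simp
  have hMc : M * c ≤ α * a := hca ▸ mul_le_mul_of_nonneg_right hM hc
  have hMc' : α * a - 1 ≤ M * c := by nlinarith [mul_le_mul_of_nonneg_right hM'.le hc]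
  have hMd : M * d ≤ α * b := hdb ▸ mul_le_mul_of_nonneg_right hM hd
  have hsq : (M * c - m) ^ 2 ≤ 1 :=
    (sq_le_one_iff_abs_le_one _).2 (abs_le.2 ⟨by linarith, by linarith⟩)
  have hmix : M * c * d ≤ α * min (a : ℝ) b := by
    rcases min_choice (a : ℝ) b with h' | h' <;> rw [h']
    · exact (mul_le_of_le_one_right (by positivity) hd1).trans hMc
    · rw [mul_right_comm]
      exact (mul_le_of_le_one_right (by positivity) hc1).trans hMd
  have hD : |M - m - m'| ≤ 2 := abs_le.2 ⟨by linarith, by linarith⟩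
  have hT2 : T ^ 2 = min (a : ℝ) b := Real.sq_sqrt (by positivity)
  have hdiv : ((M * c - m) ^ 2 + M * c * d) / T ≤ 1 + α * T := by
    rw [← hT2] at hmix
    rw [div_le_iff₀ (by linarith)]
    nlinarith
  linarith [mul_le_mul_of_nonneg_left hT1 hα.le]

include hf hB in
/-- **Near superadditivity.** -/
theorem superadd (hOP : OnePatM f) (hL : ∀ x y, |f x - f y| ≤ L * |x - y|) (hL0 : 0 ≤ L)
    (hα : 0 < α) {a b : ℕ} (ha : 0 < a) (hb : 0 < b) :
    spr f a ⌊α * a⌋₊ + spr f b ⌊α * b⌋₊
      - (5 * α * Real.exp (2 * B) * L + B * (α + 5) + 3) * h34 ((a + b : ℕ) : ℝ)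
      ≤ spr f (a + b) ⌊α * (a + b : ℕ)⌋₊ := by
  have hB0 : 0 ≤ B := (abs_nonneg _).trans (hB 0)
  set M := ⌊α * (a + b : ℕ)⌋₊
  have ha' : (0 : ℝ) < a := by exact_mod_cast ha
  have hb' : (0 : ℝ) < b := by exact_mod_cast hb
  have hn0 : (0 : ℝ) < (a : ℝ) + b := by positivity
  set c := (a : ℝ) / (a + b)
  set d := (b : ℝ) / (a + b)
  have hc : 0 ≤ c := by positivity
  have hd : 0 ≤ d := by positivity
  have hcd : c + d = 1 := by simp only [c, d]; rw [← add_div, div_self (by positivity)]
  have s1 := compare_split hf hB hL hL0 ha hb M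
  have s4 := super hf hB hc hd hcd measurable_dir measurable_dir
    (fun ν' hν' => hOP a b ha hb ν' hν') M (gs a) (gs b) inferInstance inferInstance
  -- the mixture
  set m := ⌊α * a⌋₊
  set m' := ⌊α * b⌋₊
  set T := √(min a b : ℝ)
  have hT1 : 1 ≤ T := Real.one_le_sqrt.2 (le_min (by exact_mod_cast ha) (by exact_mod_cast hb))
  have s5 := mix_lower hc hd hcd (B := B) (s := T) (K := spr f a m + spr f b m') (m := m) (m' := m') M
    (fun i j => F f (gs a) dir i + F f (gs b) dir j) 0 0 fun i j => by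
      have h1 := abs_le.1 (F_lip hf hB (gs a) measurable_dir i m)
      have h2 := abs_le.1 (F_lip hf hB (gs b) measurable_dir j m')
      have h3 : |(j : ℝ) - m'| ≤ |(i : ℝ) - m| + |(i : ℝ) + j - m - m'| := by
        calc |(j : ℝ) - m'| = |((i : ℝ) + j - m - m') - ((i : ℝ) - m)| := by ring_nf
          _ ≤ _ := (abs_sub _ _).trans_eq (add_comm _ _)
      have h4 : 2 * |(i : ℝ) - m| ≤ ((i : ℝ) - m) ^ 2 / T + T := by
        rw [div_add' _ _ _ (by positivity), le_div_iff₀ (by positivity)]
        nlinarith [sq_nonneg (|(i : ℝ) - m| - T), sq_abs ((i : ℝ) - m)]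
      simp only [zero_add, spr]
      have h5 := mul_le_mul_of_nonneg_left (add_le_add h4 (le_refl |(i : ℝ) + j - m - m'|)) hB0
      have h6 := mul_le_mul_of_nonneg_left h3 hB0
      nlinarith [h1.1, h2.1]
  simp only [zero_add] at s5
  have hin := mix_error hα ha hb
  dsimp only at hin
  have hn1 : 1 ≤ √((a : ℝ) + b) :=
    Real.one_le_sqrt.2 (le_add_of_le_of_nonneg (by exact_mod_cast ha) hb'.le)
  have hH : T ≤ h34 ((a + b : ℕ) : ℝ) := by
    push_cast
    exact (Real.sqrt_le_sqrt ((min_le_left _ _).trans (le_add_of_nonneg_right hb'.le))).trans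
      (le_mul_of_one_le_right (Real.sqrt_nonneg _) (Real.one_le_sqrt.2 hn1))
  have hM : (M : ℝ) ≤ α * (a + b) :=
    (Nat.floor_le (show 0 ≤ α * ((a + b : ℕ) : ℝ) by positivity)).trans_eq (by push_cast; ring)
  have hMτ : (M : ℝ) * (Real.exp (2 * B) * L * (5 / √√((a : ℝ) + b)))
      ≤ 5 * α * Real.exp (2 * B) * L * h34 ((a + b : ℕ) : ℝ) := by
    refine (mul_le_mul_of_nonneg_right hM (by positivity)).trans (le_of_eq ?_)
    have h2 : (√√((a : ℝ) + b)) ^ 2 = √((a : ℝ) + b) := Real.sq_sqrt (Real.sqrt_nonneg _)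
    have h3 : (√((a : ℝ) + b)) ^ 2 = (a : ℝ) + b := Real.sq_sqrt hn0.le
    simp only [h34]
    push_cast
    field_simp
    rw [h2, mul_assoc L, Real.mul_self_sqrt hn0.le]; ring
  have e1 := mul_le_mul_of_nonneg_left (hin.trans (mul_le_mul_of_nonneg_left hH (by positivity))) hB0
  have e2 : (3 : ℝ) ≤ 3 * h34 ((a + b : ℕ) : ℝ) := by linarith
  linarith

end Vale.Agent.P157.Sphere
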