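import Vale.Agent.P157.Sphere.OnePat

/-!
Exchange of all patterns between a system and its two parts.
-/

open MeasureTheory ProbabilityTheory Filter Topology

namespace Vale.Agent.P157.Sphere

/-- Binomial mixture, as a recursion. -/
noncomputable def mix (c d : ℝ) : ℕ → (ℕ → ℕ → ℝ) → ℝ
  | 0, φ => φ 0 0
  | M + 1, φ => c * mix c d M (fun i j => φ (i + 1) j) + d * mix c d M (fun i j => φ i (j + 1))

variable {c d : ℝ}

theorem mix_add_const (hcd : c + d = 1) (k : ℝ) : ∀ (M : ℕ) (φ : ℕ → ℕ → ℝ),
    mix c d M (fun i j => k + φ i j) = k + mix c d M φ := by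
  intro M
  induction M with
  | zero => intro φ; rfl
  | succ M ih =>
    intro φ
    simp only [mix, ih]
    linear_combination k * hcd

theorem mix_integral {X : Type*} [MeasurableSpace X] (μ : Measure X) : ∀ (M : ℕ) (φ : X → ℕ → ℕ → ℝ),
    (∀ i j, Integrable (fun x => φ x i j) μ) →
    Integrable (fun x => mix c d M (φ x)) μ ∧
      ∫ x, mix c d M (φ x) ∂μ = mix c d M (fun i j => ∫ x, φ x i j ∂μ) := by
  intro M
  induction M with
  | zero => intro φ h; exact ⟨h 0 0, rfl⟩
  | succ M ih =>
    intro φ h
    obtain ⟨i1, e1⟩ := ih (fun x i j => φ x (i + 1) j) fun i j => h _ _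
    obtain ⟨i2, e2⟩ := ih (fun x i j => φ x i (j + 1)) fun i j => h _ _
    refine ⟨(i1.const_mul c).add (i2.const_mul d), ?_⟩
    simp only [mix]
    rw [integral_add (i1.const_mul c) (i2.const_mul d), integral_const_mul, integral_const_mul, e1, e2]

/-- A quadratic minorant passes to the mixture. -/
theorem mix_lower (hc : 0 ≤ c) (hd : 0 ≤ d) (hcd : c + d = 1) {B s K : ℝ} {m m' : ℝ} :
    ∀ (M : ℕ) (φ : ℕ → ℕ → ℝ) (x y : ℝ),
      (∀ i j : ℕ, K - B * ((x + i - m) ^ 2 / s + s + |x + y + i + j - m - m'|) ≤ φ i j) →
      K - B * (((x + M * c - m) ^ 2 + M * c * d) / s + s + |x + y + M - m - m'|) ≤ mix c d M φ := by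
  intro M
  induction M with
  | zero => intro φ x y h; have := h 0 0; simpa [mix] using this
  | succ M ih =>
    intro φ x y h
    have i1 := ih (fun i j => φ (i + 1) j) (x + 1) y fun i j => by
      refine le_of_eq_of_le ?_ (h (i + 1) j)
      push_cast; ring_nf
    have i2 := ih (fun i j => φ i (j + 1)) x (y + 1) fun i j => by
      refine le_of_eq_of_le ?_ (h i (j + 1))
      push_cast; ring_nf
    refine le_trans (le_of_eq ?_)
      (add_le_add (mul_le_mul_of_nonneg_left i1 hc) (mul_le_mul_of_nonneg_left i2 hd))
    push_cast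
    rw [show x + 1 + y + (M : ℝ) - m - m' = x + y + ((M : ℝ) + 1) - m - m' by ring,
      show x + (y + 1) + (M : ℝ) - m - m' = x + y + ((M : ℝ) + 1) - m - m' by ring]
    obtain rfl : d = 1 - c := by linarith
    ring

variable {S : Type*} [MeasurableSpace S] {n : ℕ} {f : ℝ → ℝ} {B : ℝ}
  (hf : Measurable f) (hB : ∀ x, |f x| ≤ B)
include hf hB

/-- A first pattern which sees one part only. -/
theorem hd_side {T : Type*} [MeasurableSpace T] (μ : Measure S) [IsProbabilityMeasure μ]
    (μa : Measure T) [IsProbabilityMeasure μa] {m : ℕ} {u : T → Fin m → ℝ} (hu : Measurable u)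
    {k : Fin m → Fin n} (hk : Function.Injective k) {w' w : S → Fin n → ℝ} (hw' : Measurable w')
    (hw : Measurable w) (hg : ∀ g, gain f μ w' g = gain f μa u (fun i => g (k i)))
    (hcd : c + d = 1) (M : ℕ) (sel : ℕ → ℕ → ℕ) (R : ℕ → ℕ → ℝ)
    (ih : ∀ g : Fin n → ℝ,
      mix c d M (fun i j => F f (μa.tilted fun t => f (dot (fun i => g (k i)) (u t))) u (sel i j) + R i j)
        ≤ F f (μ.tilted fun s => f (dot g (w' s))) w M) :
    mix c d M (fun i j => F f μa u (sel i j + 1) + R i j) ≤ hd f μ w' w M := by
  have hp : MeasurePreserving (fun (g : Fin n → ℝ) i => g (k i)) (gs n) (gs m) :=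
    mp_comp (gaussianReal 0 1) hk
  set φ : (Fin n → ℝ) → ℕ → ℕ → ℝ := fun g i j => gain f μa u (fun l => g (k l))
    + F f (μa.tilted fun t => f (dot (fun l => g (k l)) (u t))) u (sel i j) + R i j
  have hφ : ∀ i j, Integrable (fun g => φ g i j) (gs n) := fun i j =>
    (hp.integrable_comp_of_integrable (head_eq hf hB μa hu hu (sel i j)).1).add (integrable_const _)
  have hval : ∀ i j, ∫ g, φ g i j ∂gs n = F f μa u (sel i j + 1) + R i j := fun i j => by
    obtain ⟨hi, he⟩ := head_eq hf hB μa hu hu (sel i j)
    have hi' := hp.integrable_comp_of_integrable hi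
    simp only [Function.comp_def] at hi'
    simp only [φ]
    rw [integral_add hi' (integrable_const _), F_succ, he]
    simp only [integral_const, probReal_univ, one_smul]
    congr 1
    conv_rhs => rw [← hp.map_eq]
    rw [integral_map hp.measurable.aemeasurable]
    rw [hp.map_eq]; exact hi.aestronglyMeasurable
  obtain ⟨hmi, hme⟩ := mix_integral (c := c) (d := d) (gs n) M φ hφ
  simp only [hval] at hme
  obtain ⟨hi, he⟩ := head_eq hf hB μ hw' hw M
  rw [← hme, he]
  refine integral_mono hmi hi fun g => ?_
  simp only [φ, add_assoc]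
  rw [mix_add_const hcd, hg]
  linarith [ih g]

omit hf hB in
theorem tilted_fst {X Y : Type*} [MeasurableSpace X] [MeasurableSpace Y] (μa : Measure X)
    (μb : Measure Y) [IsProbabilityMeasure μa] [IsProbabilityMeasure μb] {h : X → ℝ}
    (hh : Measurable h) :
    (μa.prod μb).tilted (fun p => h p.1) = (μa.tilted h).prod μb := by
  rw [Measure.tilted, Measure.tilted, integral_fun_fst (fun x => Real.exp (h x)), probReal_univ,
    one_smul, prod_withDensity_left (by fun_prop)]

omit hf hB in
theorem tilted_snd {X Y : Type*} [MeasurableSpace X] [MeasurableSpace Y] (μa : Measure X)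
    (μb : Measure Y) [IsProbabilityMeasure μa] [IsProbabilityMeasure μb] {h : Y → ℝ}
    (hh : Measurable h) :
    (μa.prod μb).tilted (fun p => h p.2) = μa.prod (μb.tilted h) := by
  rw [Measure.tilted, Measure.tilted, integral_fun_snd (fun x => Real.exp (h x)), probReal_univ,
    one_smul, prod_withDensity_right (by fun_prop)]

omit hf hB

variable {a b : ℕ} {X Y : Type*}

/-- The configuration of the whole system. -/
noncomputable def joint (c d : ℝ) (u : X → Fin a → ℝ) (v : Y → Fin b → ℝ) (p : X × Y) :
    Fin (a + b) → ℝ :=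
  Fin.append (fun i => √c * u p.1 i) (fun j => √d * v p.2 j)

/-- The configuration of the first part. -/
def partL (u : X → Fin a → ℝ) (b : ℕ) (p : X × Y) : Fin (a + b) → ℝ := Fin.append (u p.1) 0

/-- The configuration of the second part. -/
def partR (a : ℕ) (v : Y → Fin b → ℝ) (p : X × Y) : Fin (a + b) → ℝ := Fin.append 0 (v p.2)

variable [MeasurableSpace X] [MeasurableSpace Y]

theorem measurable_append {Z : Type*} [MeasurableSpace Z] {A : Z → Fin a → ℝ} {A' : Z → Fin b → ℝ}
    (hA : Measurable A) (hA' : Measurable A') : Measurable fun z => Fin.append (A z) (A' z) :=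
  measurable_pi_lambda _ fun i => Fin.addCases
    (fun i => by simpa [Function.comp_def] using (measurable_pi_apply i).comp hA)
    (fun j => by simpa [Function.comp_def] using (measurable_pi_apply j).comp hA') i

theorem measurable_joint {u : X → Fin a → ℝ} (hu : Measurable u) {v : Y → Fin b → ℝ}
    (hv : Measurable v) (c d : ℝ) : Measurable (joint c d u v) :=
  measurable_append (by fun_prop) (by fun_prop)

theorem measurable_partL {u : X → Fin a → ℝ} (hu : Measurable u) :
    Measurable (partL (Y := Y) u b) := measurable_append (by fun_prop) measurable_const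

theorem measurable_partR {v : Y → Fin b → ℝ} (hv : Measurable v) :
    Measurable (partR (X := X) a v) := measurable_append measurable_const (by fun_prop)

include hf hB in
/-- **Superadditivity for the mixture.** -/
theorem super (hc : 0 ≤ c) (hd0 : 0 ≤ d) (hcd : c + d = 1) {u : X → Fin a → ℝ} (hu : Measurable u)
    {v : Y → Fin b → ℝ} (hv : Measurable v)
    (hOP : ∀ ν : Measure (X × Y), IsProbabilityMeasure ν →
      c * ∫ g, gain f ν (partL u b) g ∂gs (a + b) + d * ∫ g, gain f ν (partR a v) g ∂gs (a + b)
        ≤ ∫ g, gain f ν (joint c d u v) g ∂gs (a + b)) :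
    ∀ (M : ℕ) (μa : Measure X) (μb : Measure Y), IsProbabilityMeasure μa → IsProbabilityMeasure μb →
      mix c d M (fun i j => F f μa u i + F f μb v j) ≤ F f (μa.prod μb) (joint c d u v) M := by
  intro M
  induction M with
  | zero => intro μa μb _ _; simp [mix, F_zero]
  | succ M ih =>
    intro μa μb hμa hμb
    have hw := measurable_joint hu hv c d
    have hL := measurable_partL (Y := Y) (b := b) hu
    have hR := measurable_partR (X := X) (a := a) hv
    set μ := μa.prod μb
    -- exchange of the first pattern
    have hx : c * hd f μ (partL u b) (joint c d u v) M + d * hd f μ (partR a v) (joint c d u v) M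
        ≤ hd f μ (joint c d u v) (joint c d u v) M := by
      obtain ⟨i0, e0⟩ := tail_eq hf hB μ hw hw M
      obtain ⟨i1, e1⟩ := tail_eq hf hB μ hL hw M
      obtain ⟨i2, e2⟩ := tail_eq hf hB μ hR hw M
      rw [e0, e1, e2, ← integral_const_mul, ← integral_const_mul,
        ← integral_add (i1.const_mul _) (i2.const_mul _)]
      refine integral_mono ((i1.const_mul _).fun_add (i2.const_mul _)) i0 fun G => ?_
      have := hOP (μ.tilted (ham f (joint c d u v) G))
        (prob_tilted μ (measurable_ham_right hf hw G) fun s => abs_ham_le hB _ G s)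
      obtain rfl : d = 1 - c := by linarith
      linarith
    have hgL : ∀ g, gain f μ (partL u b) g = gain f μa u (fun i => g (Fin.castAdd b i)) := fun g => by
      simp only [gain, lse, dot, partL, Fin.sum_univ_add, Fin.append_left, Fin.append_right,
        Pi.zero_apply, mul_zero, Finset.sum_const_zero, add_zero, μ]
      rw [integral_fun_fst (fun x => Real.exp (f (∑ i, g (Fin.castAdd b i) * u x i))), probReal_univ,
        one_smul]
    have hgR : ∀ g, gain f μ (partR a v) g = gain f μb v (fun j => g (Fin.natAdd a j)) := fun g => by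
      simp only [gain, lse, dot, partR, Fin.sum_univ_add, Fin.append_left, Fin.append_right,
        Pi.zero_apply, mul_zero, Finset.sum_const_zero, zero_add, μ]
      rw [integral_fun_snd (fun x => Real.exp (f (∑ i, g (Fin.natAdd a i) * v x i))), probReal_univ,
        one_smul]
    have hl := hd_side hf hB μ μa hu (Fin.castAdd_injective a b) hL hw hgL hcd M (fun i _ => i)
      (fun _ j => F f μb v j) fun g => by
      have hm := measurable_pot hf hu fun i => g (Fin.castAdd b i)
      refine (ih _ μb (prob_tilted μa hm fun s => hB _) hμb).trans_eq ?_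
      rw [← tilted_fst μa μb hm]
      simp [μ, dot, partL, Fin.sum_univ_add]
    have hr := hd_side hf hB μ μb hv (Fin.natAdd_injective b a) hR hw hgR hcd M (fun _ j => j)
      (fun i _ => F f μa u i) fun g => by
      have hm := measurable_pot hf hv fun j => g (Fin.natAdd a j)
      refine le_of_eq_of_le ?_ ((ih μa _ hμa (prob_tilted μb hm fun s => hB _)).trans_eq ?_)
      · simp only [add_comm]
      · rw [← tilted_snd μa μb hm]
        simp [μ, dot, partR, Fin.sum_univ_add]
    rw [F_succ]
    refine le_trans ?_ hx
    rw [mix]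
    refine add_le_add (mul_le_mul_of_nonneg_left hl hc) (mul_le_mul_of_nonneg_left ?_ hd0)
    refine le_of_eq_of_le ?_ hr
    simp only [add_comm]

end Vale.Agent.P157.Sphere
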